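import Vale.Agent.P236KE.Eng

/-!
# P236JD / tables (generated)
-/

set_option maxRecDepth 100000

namespace Vale.Agent.P236JD

open Vale.Agent.P236KE

noncomputable def h42_4 : DLL := (DLL.cons (DL.cons (nat_lit 0x8000) (nat_lit 0)
  (DL.cons (nat_lit 0x80000) (nat_lit 0)
  (DL.cons (nat_lit 0) (nat_lit 0)
  (DL.cons (nat_lit 0) (nat_lit 0x8000)
  (DL.cons (nat_lit 0x2000000800000) (nat_lit 0x200000000000000)
  (DL.cons (nat_lit 0) (nat_lit 0)
  (DL.cons (nat_lit 0x2000000008800000) (nat_lit 0)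
  (DL.cons (nat_lit 0) (nat_lit 0x2002000000000000)
  (DL.cons (nat_lit 0x8880800000000000000000000) (nat_lit 0)
  (DL.cons (nat_lit 0x80888000) (nat_lit 0)
  (DL.cons (nat_lit 0x22200000100000000) (nat_lit 0)
  (DL.cons (nat_lit 0x8000000000000000000000) (nat_lit 0x800000000000000000000)
  (DL.cons (nat_lit 0x388000000) (nat_lit 0x6020200000000000000000000000000000)
  (DL.cons (nat_lit 0x80000000000000000) (nat_lit 0x20000000000000)
  (DL.cons (nat_lit 0x8088000000000000000000000) (nat_lit 0x20000000000000000000000000)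
  (DL.cons (nat_lit 0x80000) (nat_lit 0x4200200000000000000000000008008000)
  (DL.cons (nat_lit 0x80000000000000000000080000000000000000) (nat_lit 0x3000000000000000000000000002202000000000000)
  (DL.cons (nat_lit 0x8000000000000000000000) (nat_lit 0x80000000000000000000000)
  (DL.cons (nat_lit 0x20000000000000000000000108080000) (nat_lit 0xe200000000000000000000000200800000)
  (DL.cons (nat_lit 0x80800000000000000000000002020000000000000) (nat_lit 0x1000000000000000000000000040000000000000000)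
  DL.nil))))))))))))))))))))
  (DLL.cons (DL.cons (nat_lit 0x200800000) (nat_lit 0x80088000)
  (DL.cons (nat_lit 0) (nat_lit 0)
  (DL.cons (nat_lit 0) (nat_lit 0)
  (DL.cons (nat_lit 0x80000000) (nat_lit 0x308800000)
  (DL.cons (nat_lit 0x22000000000000) (nat_lit 0x200000000000000)
  (DL.cons (nat_lit 0) (nat_lit 0)
  (DL.cons (nat_lit 0) (nat_lit 0x108088000)
  DL.nil)))))))
  DLL.nil))

noncomputable def h42_5 : DLL := (DLL.cons (DL.cons (nat_lit 0) (nat_lit 0)
  (DL.cons (nat_lit 0) (nat_lit 0)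
  (DL.cons (nat_lit 0x800000) (nat_lit 0)
  (DL.cons (nat_lit 0) (nat_lit 0x800000)
  (DL.cons (nat_lit 0x200000008000000) (nat_lit 0x2000000000000000)
  (DL.cons (nat_lit 0x2000000000000000) (nat_lit 0)
  (DL.cons (nat_lit 0x20000000000000000) (nat_lit 0x80000000)
  (DL.cons (nat_lit 0x20000000000000000) (nat_lit 0)
  (DL.cons (nat_lit 0x20000000000000000) (nat_lit 0x80000040200000000000000)
  (DL.cons (nat_lit 0x100000000) (nat_lit 0x10800000000000000000000000)
  (DL.cons (nat_lit 0x22000000280000000) (nat_lit 0x20000000040000000100000000)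
  (DL.cons (nat_lit 0x28000000020000000000000000) (nat_lit 0x800080000000000000000)
  (DL.cons (nat_lit 0xa020000000080000000000000100800000) (nat_lit 0x4000000000000000000000000000000000)
  (DL.cons (nat_lit 0) (nat_lit 0x4000000000000000002020000100000000)
  (DL.cons (nat_lit 0x800000002000000000000000) (nat_lit 0x100000000a0200000000000000)
  (DL.cons (nat_lit 0x8000000020000000000000000080088000) (nat_lit 0x2000200000008800000000000000000000)
  (DL.cons (nat_lit 0x80800008020000000000000020000000000800000) (nat_lit 0x1008000000200000000000000082000000208000000)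
  (DL.cons (nat_lit 0x1000880000000000010000000040022000000000000) (nat_lit 0x800000000000000000000000)
  DL.nil))))))))))))))))))
  (DLL.cons (DL.cons (nat_lit 0) (nat_lit 0x100080000)
  (DL.cons (nat_lit 0x300000000) (nat_lit 0x800000)
  (DL.cons (nat_lit 0) (nat_lit 0)
  (DL.cons (nat_lit 0x180080000) (nat_lit 0x200800000)
  (DL.cons (nat_lit 0x2000000000000) (nat_lit 0x2000000000080000)
  DL.nil)))))
  DLL.nil))

noncomputable def h42_6 : DLL := (DLL.cons (DL.cons (nat_lit 0) (nat_lit 0)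
  (DL.cons (nat_lit 0x800000) (nat_lit 0)
  (DL.cons (nat_lit 0x8000000) (nat_lit 0)
  (DL.cons (nat_lit 0) (nat_lit 0)
  (DL.cons (nat_lit 0x20000000000000000) (nat_lit 0x80000000)
  (DL.cons (nat_lit 0) (nat_lit 0x20000000000000000)
  (DL.cons (nat_lit 0x40000000080800000) (nat_lit 0x100000000)
  (DL.cons (nat_lit 0) (nat_lit 0x40000000000000000)
  (DL.cons (nat_lit 0x20000000000000000) (nat_lit 0x20000000040000000000000000)
  (DL.cons (nat_lit 0) (nat_lit 0)
  (DL.cons (nat_lit 0xa0000000380000000) (nat_lit 0x200000000000000)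
  (DL.cons (nat_lit 0x8000000000000000000000) (nat_lit 0x10800000040000000000000000)
  (DL.cons (nat_lit 0xa200000000800000000000000000000000) (nat_lit 0x18000000000000000288000000)
  (DL.cons (nat_lit 0x2020000000000000080220000080800000) (nat_lit 0x2000200000000)
  (DL.cons (nat_lit 0x30080000020220000000000000) (nat_lit 0x2000000000000000)
  (DL.cons (nat_lit 0x200000008000000000000100000000) (nat_lit 0x200000000000800000000000008000000)
  DL.nil))))))))))))))))
  (DLL.cons (DL.cons (nat_lit 0) (nat_lit 0x200000000)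
  (DL.cons (nat_lit 0x88000000) (nat_lit 0x80000)
  DL.nil))
  DLL.nil))

noncomputable def h42_7 : DLL := (DLL.cons (DL.cons (nat_lit 0) (nat_lit 0x800000)
  (DL.cons (nat_lit 0x8000000) (nat_lit 0)
  (DL.cons (nat_lit 0x80000000) (nat_lit 0)
  (DL.cons (nat_lit 0x80000000) (nat_lit 0)
  (DL.cons (nat_lit 0x200000100000000) (nat_lit 0x40000000080800000)
  (DL.cons (nat_lit 0x40000000000000000) (nat_lit 0)
  (DL.cons (nat_lit 0x80000000100000000) (nat_lit 0x288000000)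
  (DL.cons (nat_lit 0x200000000) (nat_lit 0x80000000)
  (DL.cons (nat_lit 0x20000000000200000000000000) (nat_lit 0x40000000000000000)
  (DL.cons (nat_lit 0) (nat_lit 0x100000000)
  (DL.cons (nat_lit 0x20200000280000000) (nat_lit 0x40000000108000000)
  (DL.cons (nat_lit 0x80000000000000000000000) (nat_lit 0x8008800000200000000000000)
  (DL.cons (nat_lit 0xa002000010880000000000000100800000) (nat_lit 0x4020000008008000000000000080080000)
  (DL.cons (nat_lit 0x4000000000000000042002000000080000) (nat_lit 0x200000000000000000000000100000000)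
  DL.nil))))))))))))))
  (DLL.cons (DL.cons (nat_lit 0x8080000) (nat_lit 0x100008000)
  DL.nil)
  DLL.nil))

noncomputable def h42_8 : DLL := (DLL.cons (DL.cons (nat_lit 0) (nat_lit 0)
  (DL.cons (nat_lit 0) (nat_lit 0)
  (DL.cons (nat_lit 0x100000000) (nat_lit 0)
  (DL.cons (nat_lit 0) (nat_lit 0x100000000)
  (DL.cons (nat_lit 0xe2000000008000000) (nat_lit 0x380000000)
  (DL.cons (nat_lit 0) (nat_lit 0x80000000000000000)
  (DL.cons (nat_lit 0x800000) (nat_lit 0x180000000)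
  (DL.cons (nat_lit 0) (nat_lit 0x40000000100000000)
  (DL.cons (nat_lit 0x180800000c2200000000000000) (nat_lit 0x800000020000000000000000)
  (DL.cons (nat_lit 0) (nat_lit 0x8080000000000000280000000)
  (DL.cons (nat_lit 0xa0000000100800000) (nat_lit 0x40020000000000000)
  (DL.cons (nat_lit 0) (nat_lit 0x808800040020000000000000)
  DL.nil))))))))))))
  DLL.nil)

noncomputable def h42_9 : DLL := (DLL.cons (DL.cons (nat_lit 0x800000) (nat_lit 0x80000000)
  (DL.cons (nat_lit 0x100000000) (nat_lit 0x8000000)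
  (DL.cons (nat_lit 0x200000000) (nat_lit 0)
  (DL.cons (nat_lit 0x200000000) (nat_lit 0)
  (DL.cons (nat_lit 0x20000000000000000) (nat_lit 0x280000000)
  (DL.cons (nat_lit 0) (nat_lit 0x40000000000000000)
  (DL.cons (nat_lit 0x100000000) (nat_lit 0)
  (DL.cons (nat_lit 0x200000280000000) (nat_lit 0xa0000000000000000)
  (DL.cons (nat_lit 0x880000002000000000000000) (nat_lit 0x380080000e0000000000000000)
  (DL.cons (nat_lit 0x800000000000000000000000) (nat_lit 0x80000)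
  DL.nil))))))))))
  DLL.nil)

noncomputable def h43_0 : DLL := (DLL.cons (DL.cons (nat_lit 0) (nat_lit 0)
  (DL.cons (nat_lit 0) (nat_lit 0)
  (DL.cons (nat_lit 0x1) (nat_lit 0)
  (DL.cons (nat_lit 0) (nat_lit 0x1)
  (DL.cons (nat_lit 0x10) (nat_lit 0x100000000)
  (DL.cons (nat_lit 0) (nat_lit 0x100000000)
  (DL.cons (nat_lit 0) (nat_lit 0x100)
  (DL.cons (nat_lit 0x1000000000) (nat_lit 0)
  (DL.cons (nat_lit 0) (nat_lit 0x110000000000000000)
  (DL.cons (nat_lit 0) (nat_lit 0x1000)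
  (DL.cons (nat_lit 0x10000) (nat_lit 0x10000000000)
  (DL.cons (nat_lit 0) (nat_lit 0x1000000100000000000)
  (DL.cons (nat_lit 0x101000000000000000000100000) (nat_lit 0x1100000000000001000)
  (DL.cons (nat_lit 0) (nat_lit 0)
  (DL.cons (nat_lit 0x1100000000000) (nat_lit 0x10000000000000000000)
  (DL.cons (nat_lit 0x10000100000000000001010000) (nat_lit 0x1000000001000000000000000000)
  (DL.cons (nat_lit 0x1100000000000000000000000000000000) (nat_lit 0x10010000000000000000010010000000000)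
  (DL.cons (nat_lit 0x1000000000000000100020000000000000) (nat_lit 0x10000000000000000000)
  (DL.cons (nat_lit 0x101000000000000111000) (nat_lit 0x1111000010100000000005000000)
  (DL.cons (nat_lit 0x40100004000000000000000100000000000) (nat_lit 0x10000000000000000000010000004000000)
  (DL.cons (nat_lit 0x710000061100000000000010100060010000000000) (nat_lit 0x10010000000000101000001000000000000)
  (DL.cons (nat_lit 0xa00000000000000001000200000000000000100000) (nat_lit 0x10100000000000100000810000000000008001000)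
  (DL.cons (nat_lit 0xe0100000000000000000040000000000000) (nat_lit 0x110000040000000000000b1010004000000)
  (DL.cons (nat_lit 0x1000000000000000000000000000100000000000) (nat_lit 0x100000050000000000000501000010000000000000)
  (DL.cons (nat_lit 0x4100000a00000000000001100000000100000000009000000) (nat_lit 0x200100041010000000000e000000801000000000004001000)
  (DL.cons (nat_lit 0x8000000000000001010008000000000000000000000000000) (nat_lit 0x21010000000000)
  (DL.cons (nat_lit 0x50100000000000310000041010000000000) (nat_lit 0xa011000810100000000004010000b0100000000000)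
  DL.nil)))))))))))))))))))))))))))
  (DLL.cons (DL.cons (nat_lit 0x101000) (nat_lit 0)
  (DL.cons (nat_lit 0x100000) (nat_lit 0x1000)
  (DL.cons (nat_lit 0) (nat_lit 0)
  (DL.cons (nat_lit 0x1000) (nat_lit 0x10000)
  (DL.cons (nat_lit 0x100000) (nat_lit 0x20010000001000)
  (DL.cons (nat_lit 0) (nat_lit 0x31100000000000)
  (DL.cons (nat_lit 0) (nat_lit 0x4000000)
  (DL.cons (nat_lit 0x41110000000000) (nat_lit 0x20000000011000)
  (DL.cons (nat_lit 0x200100080000000000000) (nat_lit 0x10000021000000000000)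
  (DL.cons (nat_lit 0xc0100000000000c101000) (nat_lit 0x210000000000003000000)
  (DL.cons (nat_lit 0x100004000000) (nat_lit 0)
  (DL.cons (nat_lit 0xa0010000000000) (nat_lit 0xb11000041100000000000)
  (DL.cons (nat_lit 0x100000200000000000000000000) (nat_lit 0xa001000000000000000002000000)
  (DL.cons (nat_lit 0x6001000000000021010000010000) (nat_lit 0x1000000000000090100007101000)
  DL.nil))))))))))))))
  (DLL.cons (DL.cons (nat_lit 0x4010000) (nat_lit 0x1101000)
  DL.nil)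
  DLL.nil)))

noncomputable def h43_1 : DLL := (DLL.cons (DL.cons (nat_lit 0) (nat_lit 0)
  (DL.cons (nat_lit 0x1) (nat_lit 0)
  (DL.cons (nat_lit 0x10) (nat_lit 0)
  (DL.cons (nat_lit 0) (nat_lit 0)
  (DL.cons (nat_lit 0x1000000000) (nat_lit 0x100)
  (DL.cons (nat_lit 0) (nat_lit 0)
  (DL.cons (nat_lit 0x1000) (nat_lit 0x10000000000)
  (DL.cons (nat_lit 0x10000000000) (nat_lit 0)
  (DL.cons (nat_lit 0x100000000000) (nat_lit 0x10000000000)
  (DL.cons (nat_lit 0) (nat_lit 0x1000000000000000000)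
  (DL.cons (nat_lit 0x10000000000000000000) (nat_lit 0x10000001000)
  (DL.cons (nat_lit 0) (nat_lit 0x10100001000000000000)
  (DL.cons (nat_lit 0x110000000000000000000100000) (nat_lit 0x10000)
  (DL.cons (nat_lit 0x10100000010000) (nat_lit 0x1010000000000000000001000000)
  (DL.cons (nat_lit 0x100000001000000000000) (nat_lit 0x10000010100000000000)
  (DL.cons (nat_lit 0x100000200100000000000001000) (nat_lit 0)
  (DL.cons (nat_lit 0x1010000000000000000000100000000000) (nat_lit 0x10000005000000000000050010005001000)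
  (DL.cons (nat_lit 0x40000000000000100000050000000000000) (nat_lit 0x100000000000401000000000000000000)
  (DL.cons (nat_lit 0xa100000c11100000000001100000) (nat_lit 0x401100000000000000000c011000)
  (DL.cons (nat_lit 0xa0010000001000) (nat_lit 0x80010000000000000000001000008000000)
  (DL.cons (nat_lit 0x801000000100000000000000000020100000000000) (nat_lit 0x3101000e10000000000007110000d1010000000000)
  (DL.cons (nat_lit 0x100000000000001010000101000000000004010000) (nat_lit 0x401000000000004000000000000000000000000000)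
  (DL.cons (nat_lit 0x41010000000000000000000000004000000) (nat_lit 0x301000080110000000000b0010008010000)
  (DL.cons (nat_lit 0x200000080000000000000200100020000000000000) (nat_lit 0x1000000000000800000000000000000000)
  (DL.cons (nat_lit 0x410000050000000000000e001000001000000000000010000) (nat_lit 0x9011000810000000000001000000b0010000000000f001000)
  DL.nil)))))))))))))))))))))))))
  (DLL.cons (DL.cons (nat_lit 0) (nat_lit 0x10000)
  (DL.cons (nat_lit 0) (nat_lit 0x1100000)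
  (DL.cons (nat_lit 0) (nat_lit 0)
  (DL.cons (nat_lit 0x6101000) (nat_lit 0)
  (DL.cons (nat_lit 0x10000) (nat_lit 0x100000000000)
  (DL.cons (nat_lit 0x90000000000000) (nat_lit 0x41100008000000)
  (DL.cons (nat_lit 0x2001000) (nat_lit 0x8100000)
  (DL.cons (nat_lit 0xb0100004100000) (nat_lit 0x1010001010000)
  (DL.cons (nat_lit 0x501000010000000000000) (nat_lit 0x40000000000000)
  (DL.cons (nat_lit 0x111100000000000011000) (nat_lit 0xc0000000000000e000000)
  (DL.cons (nat_lit 0x1000000100000) (nat_lit 0x20000008001000)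
  (DL.cons (nat_lit 0x900100000010000000000) (nat_lit 0x411000080000000000000)
  DL.nil))))))))))))
  DLL.nil))

noncomputable def h43_2 : DLL := (DLL.cons (DL.cons (nat_lit 0) (nat_lit 0x1)
  (DL.cons (nat_lit 0x10) (nat_lit 0)
  (DL.cons (nat_lit 0x100) (nat_lit 0)
  (DL.cons (nat_lit 0x100) (nat_lit 0)
  (DL.cons (nat_lit 0x11000000000) (nat_lit 0x1000)
  (DL.cons (nat_lit 0x10000000000) (nat_lit 0)
  (DL.cons (nat_lit 0x1000) (nat_lit 0x100000010000)
  (DL.cons (nat_lit 0) (nat_lit 0x10000)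
  (DL.cons (nat_lit 0) (nat_lit 0x10100001000000000000)
  (DL.cons (nat_lit 0x100000000000001000) (nat_lit 0)
  (DL.cons (nat_lit 0x100000000000000010000) (nat_lit 0x110000000000)
  (DL.cons (nat_lit 0x10000000000000) (nat_lit 0x100000000000)
  (DL.cons (nat_lit 0x1001000300000000000001100000) (nat_lit 0x100000011000000000000011000)
  (DL.cons (nat_lit 0x21000000000000) (nat_lit 0x1000000000000010000001000)
  (DL.cons (nat_lit 0x4000000010000000010000000000) (nat_lit 0x301000001000004000000)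
  (DL.cons (nat_lit 0x10000000000000000000000000) (nat_lit 0x4000000401000000000005010000)
  (DL.cons (nat_lit 0x11100003000000000000090010000011000) (nat_lit 0x2001000c01100000000006100000d000000)
  (DL.cons (nat_lit 0x21000000000000) (nat_lit 0x20010000000000800000080010000000000)
  (DL.cons (nat_lit 0x7100000100000000000002010000) (nat_lit 0xe01100000000001101000)
  (DL.cons (nat_lit 0x100004000000000000000100004010000) (nat_lit 0x40000000000000000000040000000000000)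
  (DL.cons (nat_lit 0x100000021010000000000311100020100000000000) (nat_lit 0xe10100000100000000000800000001000000000000)
  (DL.cons (nat_lit 0x10100000000000100000810000000000002001000) (nat_lit 0x200000000000008000000200100000000000000000)
  (DL.cons (nat_lit 0x201000040010000000000b1010008000000) (nat_lit 0xd0000008110000000000040000004010000)
  DL.nil)))))))))))))))))))))))
  (DLL.cons (DL.cons (nat_lit 0x2001000) (nat_lit 0x100000)
  (DL.cons (nat_lit 0x4001000) (nat_lit 0x2000000)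
  (DL.cons (nat_lit 0) (nat_lit 0)
  (DL.cons (nat_lit 0x4100000) (nat_lit 0x2010000)
  (DL.cons (nat_lit 0x80000008000000) (nat_lit 0x21000000000000)
  (DL.cons (nat_lit 0) (nat_lit 0xc1100000000000)
  (DL.cons (nat_lit 0x10000) (nat_lit 0x5000000)
  (DL.cons (nat_lit 0x80100000011000) (nat_lit 0x30000001100000)
  (DL.cons (nat_lit 0x200000000010000000000) (nat_lit 0x8000000a1000000000000)
  (DL.cons (nat_lit 0x900100000000008000000) (nat_lit 0x10000000000001011000)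
  DL.nil))))))))))
  DLL.nil))

noncomputable def h43_3 : DLL := (DLL.cons (DL.cons (nat_lit 0) (nat_lit 0)
  (DL.cons (nat_lit 0) (nat_lit 0)
  (DL.cons (nat_lit 0x1000) (nat_lit 0)
  (DL.cons (nat_lit 0) (nat_lit 0x1000)
  (DL.cons (nat_lit 0x10000010000) (nat_lit 0x100000000000)
  (DL.cons (nat_lit 0x100000000000) (nat_lit 0)
  (DL.cons (nat_lit 0x1000000100000) (nat_lit 0x1000)
  (DL.cons (nat_lit 0x1000000000000) (nat_lit 0x10000000000)
  (DL.cons (nat_lit 0x100000010000001000000) (nat_lit 0x100001100000000000)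
  (DL.cons (nat_lit 0x1010000) (nat_lit 0x100000000000000000000)
  (DL.cons (nat_lit 0x31000001011000) (nat_lit 0x10000000000)
  (DL.cons (nat_lit 0x210000000010000000000) (nat_lit 0x100000000000000000)
  (DL.cons (nat_lit 0x300100000000002010000) (nat_lit 0x1110000400000000000000101000)
  (DL.cons (nat_lit 0x100000000000) (nat_lit 0x4000000000000040000000000000)
  (DL.cons (nat_lit 0x500100010000000000000) (nat_lit 0x8000000201000021000008000000)
  (DL.cons (nat_lit 0x2100000000000000000002001000) (nat_lit 0x8001000000100000000008100000)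
  (DL.cons (nat_lit 0x20010001000000000000010000001000000) (nat_lit 0x1100000e0000000000000a1110002000000)
  (DL.cons (nat_lit 0x40100000000000400000040000000000000) (nat_lit 0x100000000000000000000)
  (DL.cons (nat_lit 0x4001000810000000000002001000) (nat_lit 0xa00000050010000000000d100000)
  (DL.cons (nat_lit 0x21010000001000000000000000008000000) (nat_lit 0x800000080000000000000a1000000001000)
  (DL.cons (nat_lit 0x1000000100000000000811000020100000000000) (nat_lit 0x4000000f0010000000000700100050000000000000)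
  DL.nil)))))))))))))))))))))
  (DLL.cons (DL.cons (nat_lit 0x5000000) (nat_lit 0x10000)
  (DL.cons (nat_lit 0xd111000) (nat_lit 0x2000000)
  (DL.cons (nat_lit 0) (nat_lit 0)
  (DL.cons (nat_lit 0x1000000) (nat_lit 0x6001000)
  (DL.cons (nat_lit 0x50100000010000) (nat_lit 0)
  (DL.cons (nat_lit 0xc0000000000000) (nat_lit 0x20100000000000)
  (DL.cons (nat_lit 0x1000) (nat_lit 0x100000)
  (DL.cons (nat_lit 0x1110008101000) (nat_lit 0xf0000005010000)
  DL.nil))))))))
  DLL.nil))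

noncomputable def h43_4 : DLL := (DLL.cons (DL.cons (nat_lit 0) (nat_lit 0)
  (DL.cons (nat_lit 0x1000) (nat_lit 0)
  (DL.cons (nat_lit 0x10000) (nat_lit 0)
  (DL.cons (nat_lit 0) (nat_lit 0)
  (DL.cons (nat_lit 0x10000000000) (nat_lit 0x101000)
  (DL.cons (nat_lit 0x1010000000000) (nat_lit 0)
  (DL.cons (nat_lit 0) (nat_lit 0x110000)
  (DL.cons (nat_lit 0) (nat_lit 0x10000001000000)
  (DL.cons (nat_lit 0x10000011000000000000) (nat_lit 0x100100000100000000000)
  (DL.cons (nat_lit 0x10000000000000100000) (nat_lit 0x200100000000002000000)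
  (DL.cons (nat_lit 0x40000000011000) (nat_lit 0x400000031110004000000)
  (DL.cons (nat_lit 0x401000000100000000000) (nat_lit 0x40000000000000)
  (DL.cons (nat_lit 0xd011000600000000000001100000) (nat_lit 0x210000011010008000000e011000)
  (DL.cons (nat_lit 0x20000008000000) (nat_lit 0x8001000000000001000000000000)
  (DL.cons (nat_lit 0x80100000000000) (nat_lit 0x711100041000000000000)
  (DL.cons (nat_lit 0x4000000100000000000000000000) (nat_lit 0x1000000401000000000004010000)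
  (DL.cons (nat_lit 0x4000000d000000000000011010001010000) (nat_lit 0x100000000010000000000e0000000001000)
  (DL.cons (nat_lit 0x21010000000000010000000000000000000) (nat_lit 0x800000000000000000000a0000000000000)
  (DL.cons (nat_lit 0x8000000001000000000000010000) (nat_lit 0x7011000910100000000005001000)
  DL.nil)))))))))))))))))))
  (DLL.cons (DL.cons (nat_lit 0xa001000) (nat_lit 0x100000)
  (DL.cons (nat_lit 0x2101000) (nat_lit 0x8010000)
  (DL.cons (nat_lit 0) (nat_lit 0)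
  (DL.cons (nat_lit 0x2010000) (nat_lit 0x9101000)
  (DL.cons (nat_lit 0x20000002100000) (nat_lit 0x1010000000000)
  (DL.cons (nat_lit 0x31110000000000) (nat_lit 0x40000000000000)
  DL.nil))))))
  DLL.nil))

noncomputable def h43_5 : DLL := (DLL.cons (DL.cons (nat_lit 0) (nat_lit 0)
  (DL.cons (nat_lit 0x100000) (nat_lit 0)
  (DL.cons (nat_lit 0) (nat_lit 0)
  (DL.cons (nat_lit 0x1000000) (nat_lit 0)
  (DL.cons (nat_lit 0) (nat_lit 0x10000000000000)
  (DL.cons (nat_lit 0x20000000000000) (nat_lit 0)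
  (DL.cons (nat_lit 0) (nat_lit 0)
  (DL.cons (nat_lit 0x20000000000000) (nat_lit 0x1000000000000)
  (DL.cons (nat_lit 0) (nat_lit 0x100000000000000000000)
  (DL.cons (nat_lit 0xa000000) (nat_lit 0x4000000)
  (DL.cons (nat_lit 0) (nat_lit 0)
  (DL.cons (nat_lit 0x800100000000000000000) (nat_lit 0x610000000000000000000)
  (DL.cons (nat_lit 0) (nat_lit 0x4000000000000000000004000000)
  (DL.cons (nat_lit 0x80100000000000) (nat_lit 0x61000000000000)
  (DL.cons (nat_lit 0x800000000000000000000) (nat_lit 0x10000000000000000000)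
  (DL.cons (nat_lit 0x101000000000000000008100000) (nat_lit 0x1000000000000000000001011000)
  DL.nil))))))))))))))))
  (DLL.cons (DL.cons (nat_lit 0x4010000) (nat_lit 0x2100000)
  DL.nil)
  DLL.nil))

noncomputable def h43_6 : DLL := (DLL.cons (DL.cons (nat_lit 0x100000) (nat_lit 0)
  (DL.cons (nat_lit 0x1000000) (nat_lit 0)
  (DL.cons (nat_lit 0) (nat_lit 0)
  (DL.cons (nat_lit 0) (nat_lit 0x2000000)
  (DL.cons (nat_lit 0) (nat_lit 0x20000000000000)
  (DL.cons (nat_lit 0) (nat_lit 0x4000000)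
  (DL.cons (nat_lit 0) (nat_lit 0)
  (DL.cons (nat_lit 0x60000000000000) (nat_lit 0x10000000000000)
  (DL.cons (nat_lit 0xa00000000000000000000) (nat_lit 0)
  (DL.cons (nat_lit 0xe000000) (nat_lit 0)
  (DL.cons (nat_lit 0) (nat_lit 0x40000000000000)
  (DL.cons (nat_lit 0xf00000000000000000000) (nat_lit 0x1000000000000000000)
  (DL.cons (nat_lit 0x2100000000000000000002100000) (nat_lit 0x8000000000000000000000000000)
  (DL.cons (nat_lit 0x10000000000) (nat_lit 0xb1100000000000)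
  DL.nil))))))))))))))
  (DLL.cons (DL.cons (nat_lit 0x1000000) (nat_lit 0x4000000)
  DL.nil)
  DLL.nil))

noncomputable def h43_7 : DLL := (DLL.cons (DL.cons (nat_lit 0x1000000) (nat_lit 0)
  (DL.cons (nat_lit 0x2000000) (nat_lit 0)
  (DL.cons (nat_lit 0) (nat_lit 0)
  (DL.cons (nat_lit 0x4000000) (nat_lit 0x2100000)
  (DL.cons (nat_lit 0x10000000000000) (nat_lit 0)
  (DL.cons (nat_lit 0) (nat_lit 0x80000008000000)
  (DL.cons (nat_lit 0) (nat_lit 0xa000000)
  (DL.cons (nat_lit 0) (nat_lit 0x80000000000000)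
  (DL.cons (nat_lit 0) (nat_lit 0x400000000000000000000)
  (DL.cons (nat_lit 0xa000000) (nat_lit 0x5000000)
  (DL.cons (nat_lit 0) (nat_lit 0x1000000000000)
  (DL.cons (nat_lit 0x801100000000000000000) (nat_lit 0x110000000000000000000)
  DL.nil))))))))))))
  DLL.nil)

noncomputable def h43_8 : DLL := (DLL.cons (DL.cons (nat_lit 0) (nat_lit 0)
  (DL.cons (nat_lit 0x4000000) (nat_lit 0)
  (DL.cons (nat_lit 0) (nat_lit 0)
  (DL.cons (nat_lit 0x1000000) (nat_lit 0xe000000)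
  (DL.cons (nat_lit 0x20000000000000) (nat_lit 0x80000000000000)
  (DL.cons (nat_lit 0) (nat_lit 0)
  (DL.cons (nat_lit 0) (nat_lit 0x4000000)
  (DL.cons (nat_lit 0x71000000000000) (nat_lit 0)
  (DL.cons (nat_lit 0x200000000000000000000) (nat_lit 0x800000000000000000000)
  (DL.cons (nat_lit 0xc100000) (nat_lit 0)
  DL.nil))))))))))
  DLL.nil)

noncomputable def h43_9 : DLL := (DLL.cons (DL.cons (nat_lit 0x4000000) (nat_lit 0x1000000)
  (DL.cons (nat_lit 0x8000000) (nat_lit 0)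
  (DL.cons (nat_lit 0) (nat_lit 0)
  (DL.cons (nat_lit 0x8000000) (nat_lit 0x2000000)
  (DL.cons (nat_lit 0) (nat_lit 0x40000000000000)
  (DL.cons (nat_lit 0) (nat_lit 0)
  (DL.cons (nat_lit 0xa000000) (nat_lit 0)
  (DL.cons (nat_lit 0x10000000000000) (nat_lit 0xc0000000000000)
  DL.nil))))))))
  DLL.nil)

noncomputable def h44_0 : DLL := (DLL.cons (DL.cons (nat_lit 0) (nat_lit 0)
  (DL.cons (nat_lit 0x1) (nat_lit 0)
  (DL.cons (nat_lit 0) (nat_lit 0)
  (DL.cons (nat_lit 0x10) (nat_lit 0)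
  (DL.cons (nat_lit 0x20000000) (nat_lit 0)
  (DL.cons (nat_lit 0) (nat_lit 0)
  (DL.cons (nat_lit 0) (nat_lit 0)
  (DL.cons (nat_lit 0) (nat_lit 0)
  (DL.cons (nat_lit 0) (nat_lit 0x4000000000000000)
  (DL.cons (nat_lit 0x10000) (nat_lit 0)
  (DL.cons (nat_lit 0) (nat_lit 0)
  (DL.cons (nat_lit 0x40000000000000000) (nat_lit 0)
  (DL.cons (nat_lit 0) (nat_lit 0)
  (DL.cons (nat_lit 0) (nat_lit 0x220000000000)
  (DL.cons (nat_lit 0x40000000000000000) (nat_lit 0)
  (DL.cons (nat_lit 0x1000000000000000000000000) (nat_lit 0x200000)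
  (DL.cons (nat_lit 0x2000000000) (nat_lit 0x2010000000000000000400000000000)
  (DL.cons (nat_lit 0) (nat_lit 0x1004000000000000000)
  (DL.cons (nat_lit 0x1800000000000000000200000) (nat_lit 0x100000)
  (DL.cons (nat_lit 0x110000000000000000000000000000) (nat_lit 0x8000000000000000000422000000000)
  (DL.cons (nat_lit 0xa000000000000000001c00000000000000000) (nat_lit 0x4020000000000000002004000000000000000)
  (DL.cons (nat_lit 0x8800000000000000000000000) (nat_lit 0x2000000000000000001500000)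
  (DL.cons (nat_lit 0x8100000000000000003800000000000) (nat_lit 0x16000000000000000000220000000000)
  (DL.cons (nat_lit 0x4000000000000000000004000000000000000) (nat_lit 0x10020000000000000002040000000000000000)
  (DL.cons (nat_lit 0x40000000000000000004000000000000000000000000) (nat_lit 0x24000000000000000009800000000000000000400000)
  DL.nil)))))))))))))))))))))))))
  (DLL.cons (DL.cons (nat_lit 0) (nat_lit 0x110000)
  (DL.cons (nat_lit 0) (nat_lit 0)
  (DL.cons (nat_lit 0) (nat_lit 0)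
  (DL.cons (nat_lit 0) (nat_lit 0x301000)
  (DL.cons (nat_lit 0x20000000000) (nat_lit 0x202000000000)
  (DL.cons (nat_lit 0) (nat_lit 0)
  (DL.cons (nat_lit 0x200000) (nat_lit 0x10000)
  (DL.cons (nat_lit 0x1000000000000) (nat_lit 0x602000000000)
  (DL.cons (nat_lit 0x1400000000000000000) (nat_lit 0x4004000000000000000)
  (DL.cons (nat_lit 0x100000) (nat_lit 0x1410000)
  (DL.cons (nat_lit 0x1002000000000) (nat_lit 0x400000000000)
  (DL.cons (nat_lit 0x7800000000000000000) (nat_lit 0x400000000000000000)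
  DL.nil))))))))))))
  DLL.nil))

noncomputable def h44_1 : DLL := (DLL.cons (DL.cons (nat_lit 0x1) (nat_lit 0)
  (DL.cons (nat_lit 0x10) (nat_lit 0)
  (DL.cons (nat_lit 0) (nat_lit 0)
  (DL.cons (nat_lit 0) (nat_lit 0x100)
  (DL.cons (nat_lit 0) (nat_lit 0x200000000)
  (DL.cons (nat_lit 0x2000000000) (nat_lit 0)
  (DL.cons (nat_lit 0) (nat_lit 0)
  (DL.cons (nat_lit 0) (nat_lit 0x2000000000)
  (DL.cons (nat_lit 0) (nat_lit 0)
  (DL.cons (nat_lit 0) (nat_lit 0x1000)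
  (DL.cons (nat_lit 0) (nat_lit 0x2000000000)
  (DL.cons (nat_lit 0x44000000000000000) (nat_lit 0)
  (DL.cons (nat_lit 0x10000) (nat_lit 0x80000000000000000100000)
  (DL.cons (nat_lit 0x420000000000) (nat_lit 0)
  (DL.cons (nat_lit 0) (nat_lit 0x804000000000000000)
  (DL.cons (nat_lit 0x800000000000000000100000) (nat_lit 0x1000)
  (DL.cons (nat_lit 0xe000000000000000000800000000000) (nat_lit 0x400000000000)
  (DL.cons (nat_lit 0) (nat_lit 0x800000000000000000)
  (DL.cons (nat_lit 0x1001000) (nat_lit 0x6800000000000000000100000)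
  (DL.cons (nat_lit 0x4010000000000000000000000000000) (nat_lit 0x10000000000000000000002000000000)
  (DL.cons (nat_lit 0x3040000000000000000) (nat_lit 0x26200000000000000004000000000000000000)
  (DL.cons (nat_lit 0x4000000000000000000a00000) (nat_lit 0x88000000000000000010000)
  (DL.cons (nat_lit 0xa000000000000000000402000000000) (nat_lit 0x10000000000000000200000000000)
  DL.nil)))))))))))))))))))))))
  (DLL.cons (DL.cons (nat_lit 0x201000) (nat_lit 0)
  (DL.cons (nat_lit 0) (nat_lit 0)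
  (DL.cons (nat_lit 0) (nat_lit 0)
  (DL.cons (nat_lit 0) (nat_lit 0x100000)
  (DL.cons (nat_lit 0x402000000000) (nat_lit 0x20000000000)
  (DL.cons (nat_lit 0) (nat_lit 0)
  (DL.cons (nat_lit 0x501000) (nat_lit 0x10000)
  (DL.cons (nat_lit 0x1020000000000) (nat_lit 0x2800000000000)
  (DL.cons (nat_lit 0x2004000000000000000) (nat_lit 0x800000000000000000)
  (DL.cons (nat_lit 0x100000) (nat_lit 0xc01000)
  DL.nil))))))))))
  DLL.nil))

noncomputable def h44_2 : DLL := (DLL.cons (DL.cons (nat_lit 0x10) (nat_lit 0)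
  (DL.cons (nat_lit 0x100) (nat_lit 0)
  (DL.cons (nat_lit 0) (nat_lit 0)
  (DL.cons (nat_lit 0) (nat_lit 0x1000)
  (DL.cons (nat_lit 0) (nat_lit 0)
  (DL.cons (nat_lit 0x20000000000) (nat_lit 0)
  (DL.cons (nat_lit 0) (nat_lit 0x10000)
  (DL.cons (nat_lit 0x2000000000) (nat_lit 0x20000000000)
  (DL.cons (nat_lit 0) (nat_lit 0)
  (DL.cons (nat_lit 0x110000) (nat_lit 0)
  (DL.cons (nat_lit 0x20000000000) (nat_lit 0x200000000000)
  (DL.cons (nat_lit 0x40000000000000000) (nat_lit 0x4000000000000000)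
  (DL.cons (nat_lit 0) (nat_lit 0x1808000000000000000201000)
  (DL.cons (nat_lit 0x800000000000) (nat_lit 0x22000000000)
  (DL.cons (nat_lit 0x1040001000000000000) (nat_lit 0x4000000c00000000000000000)
  (DL.cons (nat_lit 0x811000) (nat_lit 0x1088000000000000000200000)
  (DL.cons (nat_lit 0x5010000000000000000400000000000) (nat_lit 0x12000000000000000000800000000000)
  (DL.cons (nat_lit 0) (nat_lit 0x5444000000000000000)
  (DL.cons (nat_lit 0x4000000000000000001710000) (nat_lit 0xb800000000000000000800000)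
  (DL.cons (nat_lit 0x100000000000000000000000000000) (nat_lit 0x1422000000000)
  (DL.cons (nat_lit 0x14000000000000000004c00000000000000000) (nat_lit 0x2a000000000000000003004000000000000000)
  DL.nil)))))))))))))))))))))
  (DLL.cons (DL.cons (nat_lit 0) (nat_lit 0x111000)
  (DL.cons (nat_lit 0x800000) (nat_lit 0)
  (DL.cons (nat_lit 0) (nat_lit 0)
  (DL.cons (nat_lit 0x700000) (nat_lit 0x1800000)
  (DL.cons (nat_lit 0x200000000000) (nat_lit 0x820000000000)
  (DL.cons (nat_lit 0) (nat_lit 0)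
  (DL.cons (nat_lit 0x10000) (nat_lit 0x200000)
  (DL.cons (nat_lit 0x200000000000) (nat_lit 0x3800000000000)
  DL.nil))))))))
  DLL.nil))

noncomputable def h44_3 : DLL := (DLL.cons (DL.cons (nat_lit 0) (nat_lit 0)
  (DL.cons (nat_lit 0x1000) (nat_lit 0)
  (DL.cons (nat_lit 0) (nat_lit 0)
  (DL.cons (nat_lit 0x10000) (nat_lit 0)
  (DL.cons (nat_lit 0) (nat_lit 0)
  (DL.cons (nat_lit 0) (nat_lit 0)
  (DL.cons (nat_lit 0x200000100000) (nat_lit 0)
  (DL.cons (nat_lit 0) (nat_lit 0)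
  (DL.cons (nat_lit 0x400000400000000000) (nat_lit 0x800000000000000000)
  (DL.cons (nat_lit 0x11000) (nat_lit 0x200000)
  (DL.cons (nat_lit 0x1000000000000000000) (nat_lit 0)
  (DL.cons (nat_lit 0x1400000000000000000) (nat_lit 0)
  (DL.cons (nat_lit 0x3000000000000000000800000) (nat_lit 0)
  (DL.cons (nat_lit 0x402000000000) (nat_lit 0x1000000000000)
  (DL.cons (nat_lit 0x3c00002000000000000) (nat_lit 0x8000000004000000001000000)
  (DL.cons (nat_lit 0x8000000000000000000000000) (nat_lit 0x2000000000000000000100000)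
  (DL.cons (nat_lit 0x10000000000000000000400000000000) (nat_lit 0x3000000000000000002000000000000)
  (DL.cons (nat_lit 0x40000000000000000) (nat_lit 0x804000000000000000)
  (DL.cons (nat_lit 0xc008000000000000001100000) (nat_lit 0x3000000000000000000401000)
  DL.nil)))))))))))))))))))
  (DLL.cons (DL.cons (nat_lit 0x800000) (nat_lit 0x210000)
  (DL.cons (nat_lit 0x1000000) (nat_lit 0)
  (DL.cons (nat_lit 0) (nat_lit 0)
  (DL.cons (nat_lit 0x800000) (nat_lit 0x1310000)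
  (DL.cons (nat_lit 0x420000000000) (nat_lit 0x2000000000)
  DL.nil)))))
  DLL.nil))

noncomputable def h44_4 : DLL := (DLL.cons (DL.cons (nat_lit 0x1000) (nat_lit 0)
  (DL.cons (nat_lit 0x10000) (nat_lit 0)
  (DL.cons (nat_lit 0) (nat_lit 0)
  (DL.cons (nat_lit 0) (nat_lit 0x1000)
  (DL.cons (nat_lit 0x100000) (nat_lit 0x200000000000)
  (DL.cons (nat_lit 0) (nat_lit 0)
  (DL.cons (nat_lit 0x400000200000) (nat_lit 0)
  (DL.cons (nat_lit 0x400000000000) (nat_lit 0x22000000000)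
  (DL.cons (nat_lit 0x1c00000000000000000) (nat_lit 0x4000000000000000)
  (DL.cons (nat_lit 0x511000) (nat_lit 0)
  (DL.cons (nat_lit 0x620000800000) (nat_lit 0x800000000000)
  (DL.cons (nat_lit 0x40000000000000000) (nat_lit 0)
  (DL.cons (nat_lit 0x1400000) (nat_lit 0x3808000000000000000800000)
  (DL.cons (nat_lit 0x2000000000000) (nat_lit 0x22000000000)
  (DL.cons (nat_lit 0x1440000000000000000) (nat_lit 0x4000000000000000000)
  (DL.cons (nat_lit 0x4000000000000000000010000) (nat_lit 0x8000000000000000801000)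
  (DL.cons (nat_lit 0x12000000000000000000800000000000) (nat_lit 0x2600000000000)
  DL.nil)))))))))))))))))
  (DLL.cons (DL.cons (nat_lit 0x411000) (nat_lit 0x100000)
  (DL.cons (nat_lit 0) (nat_lit 0)
  (DL.cons (nat_lit 0) (nat_lit 0)
  (DL.cons (nat_lit 0xe00000) (nat_lit 0x101000)
  DL.nil))))
  DLL.nil))

noncomputable def h44_5 : DLL := (DLL.cons (DL.cons (nat_lit 0) (nat_lit 0)
  (DL.cons (nat_lit 0) (nat_lit 0)
  (DL.cons (nat_lit 0x100000) (nat_lit 0)
  (DL.cons (nat_lit 0) (nat_lit 0x100000)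
  (DL.cons (nat_lit 0x200000) (nat_lit 0x600000000000)
  (DL.cons (nat_lit 0) (nat_lit 0)
  (DL.cons (nat_lit 0x800000000000) (nat_lit 0x400000)
  (DL.cons (nat_lit 0) (nat_lit 0x800000000000)
  (DL.cons (nat_lit 0x400000800000000000) (nat_lit 0x1000001000000000000)
  (DL.cons (nat_lit 0x2000000000000800000) (nat_lit 0)
  (DL.cons (nat_lit 0x1400000) (nat_lit 0x4000000800000800000)
  (DL.cons (nat_lit 0) (nat_lit 0x1004002000000000000)
  (DL.cons (nat_lit 0x6000000000000800000) (nat_lit 0x4800000000000000001500000)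
  (DL.cons (nat_lit 0x1400000000000) (nat_lit 0x4000000000000020000800000)
  (DL.cons (nat_lit 0x4400000400000000000) (nat_lit 0x800001200000000000)
  DL.nil)))))))))))))))
  (DLL.cons (DL.cons (nat_lit 0) (nat_lit 0x810000)
  (DL.cons (nat_lit 0x1000000) (nat_lit 0x700000)
  DL.nil))
  DLL.nil))

noncomputable def h44_6 : DLL := (DLL.cons (DL.cons (nat_lit 0) (nat_lit 0)
  (DL.cons (nat_lit 0x100000) (nat_lit 0)
  (DL.cons (nat_lit 0x200000) (nat_lit 0)
  (DL.cons (nat_lit 0) (nat_lit 0)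
  (DL.cons (nat_lit 0x800000000000) (nat_lit 0x400000)
  (DL.cons (nat_lit 0) (nat_lit 0)
  (DL.cons (nat_lit 0x1000000000000) (nat_lit 0x900000)
  (DL.cons (nat_lit 0) (nat_lit 0x1000000800000)
  (DL.cons (nat_lit 0x1800001400000000000) (nat_lit 0x4000000800000000000)
  (DL.cons (nat_lit 0x1000000000000000000) (nat_lit 0)
  (DL.cons (nat_lit 0x3000001c00000) (nat_lit 0xa00000000000)
  (DL.cons (nat_lit 0x840000000000000000) (nat_lit 0x2000001000000000000)
  (DL.cons (nat_lit 0xe000000400000000000000000) (nat_lit 0x2000000000001c00000)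
  DL.nil)))))))))))))
  DLL.nil)

noncomputable def h44_7 : DLL := (DLL.cons (DL.cons (nat_lit 0) (nat_lit 0x100000)
  (DL.cons (nat_lit 0x200000) (nat_lit 0)
  (DL.cons (nat_lit 0x400000) (nat_lit 0)
  (DL.cons (nat_lit 0x400000) (nat_lit 0)
  (DL.cons (nat_lit 0x200000900000) (nat_lit 0x1800000000000)
  (DL.cons (nat_lit 0x400000000000) (nat_lit 0x1000000000000)
  (DL.cons (nat_lit 0x2000000800000) (nat_lit 0x1400000)
  (DL.cons (nat_lit 0x2000000000000) (nat_lit 0x800000400000)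
  (DL.cons (nat_lit 0) (nat_lit 0x5000003200000000000)
  (DL.cons (nat_lit 0x2000000000000000000) (nat_lit 0x800000)
  (DL.cons (nat_lit 0x1a00001400000) (nat_lit 0x2000000a00000)
  DL.nil)))))))))))
  DLL.nil)

noncomputable def h44_8 : DLL := (DLL.cons (DL.cons (nat_lit 0) (nat_lit 0)
  (DL.cons (nat_lit 0) (nat_lit 0)
  (DL.cons (nat_lit 0x800000) (nat_lit 0)
  (DL.cons (nat_lit 0) (nat_lit 0x800000)
  (DL.cons (nat_lit 0x3800000200000) (nat_lit 0x1c00000)
  (DL.cons (nat_lit 0) (nat_lit 0x800000000000)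
  (DL.cons (nat_lit 0x400000) (nat_lit 0x1900000)
  (DL.cons (nat_lit 0x1000000000000) (nat_lit 0x800000)
  (DL.cons (nat_lit 0x1400000600000000000) (nat_lit 0x6000001800000000000)
  DL.nil)))))))))
  DLL.nil)

noncomputable def h44_9 : DLL := (DLL.cons (DL.cons (nat_lit 0x100000) (nat_lit 0x400000)
  (DL.cons (nat_lit 0x800000) (nat_lit 0x200000)
  (DL.cons (nat_lit 0x1000000) (nat_lit 0)
  (DL.cons (nat_lit 0x1000000) (nat_lit 0)
  (DL.cons (nat_lit 0x1000000) (nat_lit 0x2000000400000)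
  (DL.cons (nat_lit 0x1000000000000) (nat_lit 0)
  DL.nil))))))
  DLL.nil)

noncomputable def h45_0 : DLL := (DLL.cons (DL.cons (nat_lit 0) (nat_lit 0)
  (DL.cons (nat_lit 0) (nat_lit 0)
  (DL.cons (nat_lit 0x1) (nat_lit 0)
  (DL.cons (nat_lit 0) (nat_lit 0x1)
  (DL.cons (nat_lit 0x10) (nat_lit 0x22000000)
  (DL.cons (nat_lit 0) (nat_lit 0)
  (DL.cons (nat_lit 0) (nat_lit 0x100)
  (DL.cons (nat_lit 0) (nat_lit 0)
  (DL.cons (nat_lit 0) (nat_lit 0x4000000000000000)
  (DL.cons (nat_lit 0x4000000000000000) (nat_lit 0x1000)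
  (DL.cons (nat_lit 0x2000010000) (nat_lit 0)
  (DL.cons (nat_lit 0x40000000000000000) (nat_lit 0x20000000000)
  (DL.cons (nat_lit 0x808000040000000000100000) (nat_lit 0x1000)
  (DL.cons (nat_lit 0) (nat_lit 0x2000000000)
  (DL.cons (nat_lit 0x4000020000000000) (nat_lit 0x440000200000000000)
  (DL.cons (nat_lit 0x1080000800000000000210000) (nat_lit 0x40000000000000000)
  (DL.cons (nat_lit 0x1000000000000000000000000000000) (nat_lit 0x110000000000000000022000000000)
  (DL.cons (nat_lit 0x404000a00000000000) (nat_lit 0x5010000000001000000002000000000)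
  (DL.cons (nat_lit 0x1000000c00000000000111000) (nat_lit 0x888000040000000000a00000)
  (DL.cons (nat_lit 0x4000000000000000000000000) (nat_lit 0x8000000000000000000020000800000)
  (DL.cons (nat_lit 0x8220001000000000000840001c00000000000) (nat_lit 0x6000006000000000001004000200000000000)
  (DL.cons (nat_lit 0x8000000000002008000000000000000500000) (nat_lit 0x22020000000008800000404000000000001000)
  (DL.cons (nat_lit 0x19010008000000000000202001000000) (nat_lit 0x6100004000000000003000000800000)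
  (DL.cons (nat_lit 0x10000008000000000000800000000000000000) (nat_lit 0x2100000000002000000000000000000)
  DL.nil))))))))))))))))))))))))
  (DLL.cons (DL.cons (nat_lit 0) (nat_lit 0)
  (DL.cons (nat_lit 0x100000) (nat_lit 0x11000)
  (DL.cons (nat_lit 0) (nat_lit 0)
  (DL.cons (nat_lit 0x10000) (nat_lit 0x101000)
  (DL.cons (nat_lit 0x200000000000) (nat_lit 0x500000)
  (DL.cons (nat_lit 0x200000000000) (nat_lit 0x802000000000)
  (DL.cons (nat_lit 0x200000) (nat_lit 0)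
  (DL.cons (nat_lit 0x600000210000) (nat_lit 0x2000400000)
  (DL.cons (nat_lit 0x4000000a00000000000) (nat_lit 0x1404002002000000000)
  (DL.cons (nat_lit 0x1000000) (nat_lit 0x7804000000000e11000)
  (DL.cons (nat_lit 0x1000000000000) (nat_lit 0x420000200000)
  DL.nil)))))))))))
  DLL.nil))

noncomputable def h45_1 : DLL := (DLL.cons (DL.cons (nat_lit 0) (nat_lit 0)
  (DL.cons (nat_lit 0x1) (nat_lit 0)
  (DL.cons (nat_lit 0x10) (nat_lit 0)
  (DL.cons (nat_lit 0) (nat_lit 0)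
  (DL.cons (nat_lit 0x200000000) (nat_lit 0x100)
  (DL.cons (nat_lit 0) (nat_lit 0x200000000)
  (DL.cons (nat_lit 0x1000) (nat_lit 0x2000000000)
  (DL.cons (nat_lit 0) (nat_lit 0x2000000000)
  (DL.cons (nat_lit 0x22000000000) (nat_lit 0)
  (DL.cons (nat_lit 0) (nat_lit 0x40000000000000000)
  (DL.cons (nat_lit 0x400000000000000000) (nat_lit 0x2000001000)
  (DL.cons (nat_lit 0x4000002000000000) (nat_lit 0x400000200000000000)
  (DL.cons (nat_lit 0x80000044000000000000000) (nat_lit 0x800000000000000000110000)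
  (DL.cons (nat_lit 0x10000) (nat_lit 0x1080000000000400000200000)
  (DL.cons (nat_lit 0x804000600000000000) (nat_lit 0x400000020000000000)
  (DL.cons (nat_lit 0x1404000000000101000) (nat_lit 0x800000000000000000000000)
  (DL.cons (nat_lit 0x6000000000000000000222000000000) (nat_lit 0x1000005000000000001400000a01000)
  (DL.cons (nat_lit 0x8100000000002800000000000000000) (nat_lit 0x2000000000000000001400000000000)
  (DL.cons (nat_lit 0x9800006c04000000000900000) (nat_lit 0x88000040000000001211000)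
  (DL.cons (nat_lit 0x4000000000000000002200000001000) (nat_lit 0x1010008000000000000800001000000)
  (DL.cons (nat_lit 0x18000012010000000000800002220000000000) (nat_lit 0x220000c000000000002000001c02000000000)
  (DL.cons (nat_lit 0x4200000000000080000040000000000210000) (nat_lit 0x10000000000001000000000000000000000000)
  DL.nil))))))))))))))))))))))
  (DLL.cons (DL.cons (nat_lit 0) (nat_lit 0)
  (DL.cons (nat_lit 0x1000) (nat_lit 0x100000)
  (DL.cons (nat_lit 0) (nat_lit 0)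
  (DL.cons (nat_lit 0xf11000) (nat_lit 0)
  (DL.cons (nat_lit 0x810000) (nat_lit 0x1000000200000)
  (DL.cons (nat_lit 0x2600000000000) (nat_lit 0x2001000000)
  (DL.cons (nat_lit 0x1001000) (nat_lit 0x400000)
  (DL.cons (nat_lit 0x2220000800000) (nat_lit 0xc02000111000)
  (DL.cons (nat_lit 0x800000420000000000) (nat_lit 0x40000000000000000)
  DL.nil)))))))))
  DLL.nil))

noncomputable def h45_2 : DLL := (DLL.cons (DL.cons (nat_lit 0) (nat_lit 0x1)
  (DL.cons (nat_lit 0x10) (nat_lit 0)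
  (DL.cons (nat_lit 0x100) (nat_lit 0)
  (DL.cons (nat_lit 0x100) (nat_lit 0)
  (DL.cons (nat_lit 0x2000000000) (nat_lit 0x200001000)
  (DL.cons (nat_lit 0) (nat_lit 0)
  (DL.cons (nat_lit 0x1000) (nat_lit 0x20000010000)
  (DL.cons (nat_lit 0) (nat_lit 0x20000010000)
  (DL.cons (nat_lit 0) (nat_lit 0x404000200000000000)
  (DL.cons (nat_lit 0x1000) (nat_lit 0x400000000000000000)
  (DL.cons (nat_lit 0x800000200000010000) (nat_lit 0x20000000000)
  (DL.cons (nat_lit 0x840000000000000000) (nat_lit 0)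
  (DL.cons (nat_lit 0x8001044000000000300000) (nat_lit 0x800000400000000000011000)
  (DL.cons (nat_lit 0x202000000000) (nat_lit 0x8000000000800000001000)
  (DL.cons (nat_lit 0x4000000440000800000000000) (nat_lit 0x804000000000800000)
  (DL.cons (nat_lit 0x4080000040000000000000000) (nat_lit 0x2000000000000010000)
  (DL.cons (nat_lit 0x9100007000000000002022000011000) (nat_lit 0x6010008088000000001e00001200000)
  (DL.cons (nat_lit 0x1000000000000004000800000000000) (nat_lit 0x14000000000004400000202000000000)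
  (DL.cons (nat_lit 0xc000000800000000001010000) (nat_lit 0x2000007044000000000701000)
  (DL.cons (nat_lit 0x2100000000000000000000000810000) (nat_lit 0x8000000000000000000000000000000)
  DL.nil))))))))))))))))))))
  (DLL.cons (DL.cons (nat_lit 0x1000) (nat_lit 0x500000)
  (DL.cons (nat_lit 0x901000) (nat_lit 0x10000)
  (DL.cons (nat_lit 0) (nat_lit 0)
  (DL.cons (nat_lit 0x1000) (nat_lit 0x610000)
  (DL.cons (nat_lit 0x2000001100000) (nat_lit 0xa02000001000)
  (DL.cons (nat_lit 0x400000000000) (nat_lit 0x1020000000000)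
  (DL.cons (nat_lit 0x10000) (nat_lit 0x800000)
  DL.nil)))))))
  DLL.nil))

noncomputable def h45_3 : DLL := (DLL.cons (DL.cons (nat_lit 0) (nat_lit 0)
  (DL.cons (nat_lit 0) (nat_lit 0)
  (DL.cons (nat_lit 0x1000) (nat_lit 0)
  (DL.cons (nat_lit 0) (nat_lit 0x1000)
  (DL.cons (nat_lit 0x10000) (nat_lit 0x20000000000)
  (DL.cons (nat_lit 0) (nat_lit 0x20000000000)
  (DL.cons (nat_lit 0x200000100000) (nat_lit 0x1000)
  (DL.cons (nat_lit 0x2000000000) (nat_lit 0x200000000000)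
  (DL.cons (nat_lit 0x800000400000200000) (nat_lit 0x404000020000000000)
  (DL.cons (nat_lit 0x800000000000210000) (nat_lit 0)
  (DL.cons (nat_lit 0xa00000211000) (nat_lit 0x2000000000)
  (DL.cons (nat_lit 0x404000000000000000) (nat_lit 0x2000000000)
  (DL.cons (nat_lit 0x800000c00000000000110000) (nat_lit 0x3080003040000000000001000)
  (DL.cons (nat_lit 0x400000000000) (nat_lit 0x4000000000000020000000000)
  (DL.cons (nat_lit 0x40001000000000000) (nat_lit 0x8000003000000a20001000000)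
  (DL.cons (nat_lit 0x2000000000000000001101000) (nat_lit 0x8005400000000000000000)
  (DL.cons (nat_lit 0x1000001000000000000c02000200000) (nat_lit 0x1400000e000000000002020001400000)
  (DL.cons (nat_lit 0) (nat_lit 0x40001020000000000)
  DL.nil))))))))))))))))))
  (DLL.cons (DL.cons (nat_lit 0x800000) (nat_lit 0x200000)
  (DL.cons (nat_lit 0x1300000) (nat_lit 0xc00000)
  (DL.cons (nat_lit 0) (nat_lit 0)
  (DL.cons (nat_lit 0x400000) (nat_lit 0x910000)
  (DL.cons (nat_lit 0x10000) (nat_lit 0x1400000800000)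
  DL.nil)))))
  DLL.nil))

noncomputable def h45_4 : DLL := (DLL.cons (DL.cons (nat_lit 0) (nat_lit 0)
  (DL.cons (nat_lit 0x1000) (nat_lit 0)
  (DL.cons (nat_lit 0x10000) (nat_lit 0)
  (DL.cons (nat_lit 0) (nat_lit 0)
  (DL.cons (nat_lit 0x2000000000) (nat_lit 0x101000)
  (DL.cons (nat_lit 0x200000000000) (nat_lit 0)
  (DL.cons (nat_lit 0) (nat_lit 0x10000)
  (DL.cons (nat_lit 0x400000000000) (nat_lit 0x20000200000)
  (DL.cons (nat_lit 0x400000220000000000) (nat_lit 0x844000400000000000)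
  (DL.cons (nat_lit 0x100000) (nat_lit 0x4000000000400000)
  (DL.cons (nat_lit 0x1000000011000) (nat_lit 0x2000000e20000800000)
  (DL.cons (nat_lit 0x40001000000000000) (nat_lit 0x2800000420000000000)
  (DL.cons (nat_lit 0x8088002000000000000900000) (nat_lit 0x3800001400002000001611000)
  (DL.cons (nat_lit 0x1000000) (nat_lit 0x8008000000002a02000000000)
  (DL.cons (nat_lit 0x2044000020000000000) (nat_lit 0x4c00001002000000000)
  (DL.cons (nat_lit 0x1000000800000000000000000) (nat_lit 0x4000000000000000000210000)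
  DL.nil))))))))))))))))
  (DLL.cons (DL.cons (nat_lit 0x1500000) (nat_lit 0x1000)
  (DL.cons (nat_lit 0x1110000) (nat_lit 0x1000)
  DL.nil))
  DLL.nil))

noncomputable def h45_5 : DLL := (DLL.cons (DL.cons (nat_lit 0) (nat_lit 0)
  (DL.cons (nat_lit 0x100000) (nat_lit 0)
  (DL.cons (nat_lit 0) (nat_lit 0)
  (DL.cons (nat_lit 0x200000) (nat_lit 0)
  (DL.cons (nat_lit 0x400000000000) (nat_lit 0)
  (DL.cons (nat_lit 0x800000000000) (nat_lit 0)
  (DL.cons (nat_lit 0) (nat_lit 0)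
  (DL.cons (nat_lit 0x800000000000) (nat_lit 0)
  (DL.cons (nat_lit 0x2800000000000000000) (nat_lit 0)
  (DL.cons (nat_lit 0x1400000) (nat_lit 0x800000)
  (DL.cons (nat_lit 0) (nat_lit 0x2800000000000)
  (DL.cons (nat_lit 0x6004000000000000000) (nat_lit 0)
  (DL.cons (nat_lit 0) (nat_lit 0x4000000000000000000800000)
  DL.nil)))))))))))))
  DLL.nil)

noncomputable def h45_6 : DLL := (DLL.cons (DL.cons (nat_lit 0x100000) (nat_lit 0)
  (DL.cons (nat_lit 0x200000) (nat_lit 0)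
  (DL.cons (nat_lit 0) (nat_lit 0)
  (DL.cons (nat_lit 0) (nat_lit 0x400000)
  (DL.cons (nat_lit 0) (nat_lit 0)
  (DL.cons (nat_lit 0) (nat_lit 0x800000)
  (DL.cons (nat_lit 0) (nat_lit 0x800000)
  (DL.cons (nat_lit 0) (nat_lit 0xc00000000000)
  (DL.cons (nat_lit 0x1000000000000000000) (nat_lit 0)
  (DL.cons (nat_lit 0x1c00000) (nat_lit 0)
  (DL.cons (nat_lit 0) (nat_lit 0x1000000000000)
  DL.nil)))))))))))
  DLL.nil)

noncomputable def h45_7 : DLL := (DLL.cons (DL.cons (nat_lit 0x200000) (nat_lit 0)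
  (DL.cons (nat_lit 0x400000) (nat_lit 0)
  (DL.cons (nat_lit 0) (nat_lit 0)
  (DL.cons (nat_lit 0x900000) (nat_lit 0)
  (DL.cons (nat_lit 0x1000000000000) (nat_lit 0x400000000000)
  (DL.cons (nat_lit 0) (nat_lit 0x2000001000000)
  (DL.cons (nat_lit 0x1000000) (nat_lit 0x400000)
  (DL.cons (nat_lit 0x800000000000) (nat_lit 0x2000000000000)
  (DL.cons (nat_lit 0x2000000000000000000) (nat_lit 0)
  DL.nil)))))))))
  DLL.nil)

noncomputable def h45_8 : DLL := (DLL.cons (DL.cons (nat_lit 0) (nat_lit 0)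
  (DL.cons (nat_lit 0x800000) (nat_lit 0)
  (DL.cons (nat_lit 0) (nat_lit 0)
  (DL.cons (nat_lit 0x200000) (nat_lit 0x1c00000)
  (DL.cons (nat_lit 0) (nat_lit 0)
  (DL.cons (nat_lit 0) (nat_lit 0)
  (DL.cons (nat_lit 0) (nat_lit 0x800000)
  DL.nil)))))))
  DLL.nil)

noncomputable def h45_9 : DLL := (DLL.cons (DL.cons (nat_lit 0x800000) (nat_lit 0x200000)
  (DL.cons (nat_lit 0x1000000) (nat_lit 0)
  (DL.cons (nat_lit 0) (nat_lit 0)
  (DL.cons (nat_lit 0) (nat_lit 0x400000)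
  (DL.cons (nat_lit 0x1000000000000) (nat_lit 0)
  DL.nil)))))
  DLL.nil)

noncomputable def h46_0 : DLL := (DLL.cons (DL.cons (nat_lit 0) (nat_lit 0)
  (DL.cons (nat_lit 0x1) (nat_lit 0)
  (DL.cons (nat_lit 0) (nat_lit 0)
  (DL.cons (nat_lit 0x10) (nat_lit 0)
  (DL.cons (nat_lit 0) (nat_lit 0x4000000)
  (DL.cons (nat_lit 0) (nat_lit 0)
  (DL.cons (nat_lit 0) (nat_lit 0)
  (DL.cons (nat_lit 0) (nat_lit 0)
  (DL.cons (nat_lit 0) (nat_lit 0)
  (DL.cons (nat_lit 0x10000) (nat_lit 0)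
  (DL.cons (nat_lit 0) (nat_lit 0)
  (DL.cons (nat_lit 0x100000000000000) (nat_lit 0)
  (DL.cons (nat_lit 0) (nat_lit 0)
  (DL.cons (nat_lit 0) (nat_lit 0xc000000000)
  (DL.cons (nat_lit 0x2000000000000000) (nat_lit 0)
  (DL.cons (nat_lit 0) (nat_lit 0x1000000000000000040000)
  (DL.cons (nat_lit 0x10000000000000000000000000) (nat_lit 0)
  (DL.cons (nat_lit 0xb000000000000000) (nat_lit 0)
  (DL.cons (nat_lit 0x800000000000000040000) (nat_lit 0x1000000000000000020000)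
  (DL.cons (nat_lit 0x50400000000) (nat_lit 0x10000000000000004000000000)
  (DL.cons (nat_lit 0x584000000000000000000000000000000) (nat_lit 0x10000000000000000)
  (DL.cons (nat_lit 0x2800000000000000280000) (nat_lit 0x8000000000000000020000)
  DL.nil))))))))))))))))))))))
  (DLL.cons (DL.cons (nat_lit 0x10000) (nat_lit 0x20000)
  (DL.cons (nat_lit 0) (nat_lit 0)
  (DL.cons (nat_lit 0) (nat_lit 0)
  (DL.cons (nat_lit 0) (nat_lit 0x60000)
  (DL.cons (nat_lit 0xc400000000) (nat_lit 0x20000000000)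
  (DL.cons (nat_lit 0) (nat_lit 0)
  (DL.cons (nat_lit 0x111000) (nat_lit 0x40000)
  (DL.cons (nat_lit 0x38000000000) (nat_lit 0x400000000)
  (DL.cons (nat_lit 0x1000000000000000) (nat_lit 0x100000000000000)
  DL.nil)))))))))
  DLL.nil))

noncomputable def h46_1 : DLL := (DLL.cons (DL.cons (nat_lit 0x1) (nat_lit 0)
  (DL.cons (nat_lit 0x10) (nat_lit 0)
  (DL.cons (nat_lit 0) (nat_lit 0)
  (DL.cons (nat_lit 0) (nat_lit 0x100)
  (DL.cons (nat_lit 0x40000000) (nat_lit 0)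
  (DL.cons (nat_lit 0x400000000) (nat_lit 0)
  (DL.cons (nat_lit 0) (nat_lit 0)
  (DL.cons (nat_lit 0x400000000) (nat_lit 0)
  (DL.cons (nat_lit 0x1000000000000000) (nat_lit 0)
  (DL.cons (nat_lit 0) (nat_lit 0x1000)
  (DL.cons (nat_lit 0) (nat_lit 0)
  (DL.cons (nat_lit 0x100000000000000) (nat_lit 0x1000000000000000)
  (DL.cons (nat_lit 0x30000) (nat_lit 0xc00000000000000000000)
  (DL.cons (nat_lit 0x4000000000) (nat_lit 0)
  (DL.cons (nat_lit 0x4000000000000000) (nat_lit 0x2100000000000000)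
  (DL.cons (nat_lit 0) (nat_lit 0x1000)
  (DL.cons (nat_lit 0x1000000000000000020000000000) (nat_lit 0x500000000000000010000000000)
  (DL.cons (nat_lit 0x1000000000000000) (nat_lit 0x4000000000000000)
  (DL.cons (nat_lit 0x301000) (nat_lit 0x800000000000000060000)
  (DL.cons (nat_lit 0x2a000000000000000a0000000000) (nat_lit 0x110000000000000000400000000)
  DL.nil))))))))))))))))))))
  (DLL.cons (DL.cons (nat_lit 0x50000) (nat_lit 0x1000)
  (DL.cons (nat_lit 0) (nat_lit 0)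
  (DL.cons (nat_lit 0) (nat_lit 0)
  (DL.cons (nat_lit 0x90000) (nat_lit 0x60000)
  (DL.cons (nat_lit 0) (nat_lit 0)
  (DL.cons (nat_lit 0) (nat_lit 0)
  (DL.cons (nat_lit 0) (nat_lit 0x2b0000)
  DL.nil)))))))
  DLL.nil))

noncomputable def h46_2 : DLL := (DLL.cons (DL.cons (nat_lit 0x10) (nat_lit 0)
  (DL.cons (nat_lit 0x100) (nat_lit 0)
  (DL.cons (nat_lit 0) (nat_lit 0)
  (DL.cons (nat_lit 0) (nat_lit 0x1000)
  (DL.cons (nat_lit 0) (nat_lit 0x400000000)
  (DL.cons (nat_lit 0x4000000000) (nat_lit 0)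
  (DL.cons (nat_lit 0) (nat_lit 0x10000)
  (DL.cons (nat_lit 0x400000000) (nat_lit 0x4000000000)
  (DL.cons (nat_lit 0x100000000000000) (nat_lit 0)
  (DL.cons (nat_lit 0x30000) (nat_lit 0)
  (DL.cons (nat_lit 0x8000000000) (nat_lit 0x4000000000)
  (DL.cons (nat_lit 0) (nat_lit 0x4000000000000000)
  (DL.cons (nat_lit 0) (nat_lit 0x840000000000000041000)
  (DL.cons (nat_lit 0x400000000) (nat_lit 0x4000000000)
  (DL.cons (nat_lit 0x9000040000000000) (nat_lit 0x4000004000000000000000)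
  (DL.cons (nat_lit 0x4000000000000000051000) (nat_lit 0x1440000000000000000000)
  (DL.cons (nat_lit 0xa00000000000000000000000000) (nat_lit 0x3410000000000000060000000000)
  (DL.cons (nat_lit 0x22000000000000000) (nat_lit 0x9000000000000000)
  DL.nil))))))))))))))))))
  (DLL.cons (DL.cons (nat_lit 0x10000) (nat_lit 0x80000)
  (DL.cons (nat_lit 0x100000) (nat_lit 0)
  (DL.cons (nat_lit 0) (nat_lit 0)
  (DL.cons (nat_lit 0xa1000) (nat_lit 0x340000)
  (DL.cons (nat_lit 0x80000000000) (nat_lit 0)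
  DL.nil)))))
  DLL.nil))

noncomputable def h46_3 : DLL := (DLL.cons (DL.cons (nat_lit 0) (nat_lit 0)
  (DL.cons (nat_lit 0x1000) (nat_lit 0)
  (DL.cons (nat_lit 0) (nat_lit 0)
  (DL.cons (nat_lit 0x10000) (nat_lit 0)
  (DL.cons (nat_lit 0x4000000000) (nat_lit 0)
  (DL.cons (nat_lit 0) (nat_lit 0)
  (DL.cons (nat_lit 0x8000020000) (nat_lit 0)
  (DL.cons (nat_lit 0) (nat_lit 0)
  (DL.cons (nat_lit 0x10000000000) (nat_lit 0x5000000000000000)
  (DL.cons (nat_lit 0x11000) (nat_lit 0x40000)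
  (DL.cons (nat_lit 0x8000000400000000) (nat_lit 0)
  (DL.cons (nat_lit 0x100000000000000) (nat_lit 0x9000000000000000)
  (DL.cons (nat_lit 0x18000000000000001a0000) (nat_lit 0x2000000000000000000000)
  (DL.cons (nat_lit 0x400000000) (nat_lit 0x44000000000)
  (DL.cons (nat_lit 0x80000000000) (nat_lit 0x8000012100000000200000)
  (DL.cons (nat_lit 0x800000000000000280000) (nat_lit 0x2000000000000000000000)
  DL.nil))))))))))))))))
  (DLL.cons (DL.cons (nat_lit 0x150000) (nat_lit 0x1000)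
  (DL.cons (nat_lit 0x200000) (nat_lit 0)
  DL.nil))
  DLL.nil))

noncomputable def h46_4 : DLL := (DLL.cons (DL.cons (nat_lit 0x1000) (nat_lit 0)
  (DL.cons (nat_lit 0x10000) (nat_lit 0)
  (DL.cons (nat_lit 0) (nat_lit 0)
  (DL.cons (nat_lit 0) (nat_lit 0x1000)
  (DL.cons (nat_lit 0x20000) (nat_lit 0x8400000000)
  (DL.cons (nat_lit 0) (nat_lit 0)
  (DL.cons (nat_lit 0x10000040000) (nat_lit 0x20000)
  (DL.cons (nat_lit 0x4000000000) (nat_lit 0x400000000)
  (DL.cons (nat_lit 0xa000000000000000) (nat_lit 0x4000000000000000)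
  (DL.cons (nat_lit 0xb1000) (nat_lit 0)
  (DL.cons (nat_lit 0x18000100000) (nat_lit 0x24000000000)
  (DL.cons (nat_lit 0x100000000000000) (nat_lit 0x10000000000000000)
  (DL.cons (nat_lit 0x5000000000000000280000) (nat_lit 0x2840000000000000040000)
  (DL.cons (nat_lit 0x80400000000) (nat_lit 0x4000000000)
  DL.nil))))))))))))))
  (DLL.cons (DL.cons (nat_lit 0x81000) (nat_lit 0x200000)
  DL.nil)
  DLL.nil))

noncomputable def h46_5 : DLL := (DLL.cons (DL.cons (nat_lit 0) (nat_lit 0)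
  (DL.cons (nat_lit 0) (nat_lit 0)
  (DL.cons (nat_lit 0x20000) (nat_lit 0)
  (DL.cons (nat_lit 0) (nat_lit 0x20000)
  (DL.cons (nat_lit 0x40000) (nat_lit 0x10000000000)
  (DL.cons (nat_lit 0) (nat_lit 0x10000000000)
  (DL.cons (nat_lit 0x20000000000) (nat_lit 0x80000)
  (DL.cons (nat_lit 0) (nat_lit 0)
  (DL.cons (nat_lit 0) (nat_lit 0x8000060000000000)
  (DL.cons (nat_lit 0x10000000000100000) (nat_lit 0)
  (DL.cons (nat_lit 0x280000) (nat_lit 0x20000040000100000)
  (DL.cons (nat_lit 0x20000000000000000) (nat_lit 0x81000a0000000000)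
  DL.nil))))))))))))
  DLL.nil)

noncomputable def h46_6 : DLL := (DLL.cons (DL.cons (nat_lit 0) (nat_lit 0)
  (DL.cons (nat_lit 0x20000) (nat_lit 0)
  (DL.cons (nat_lit 0x40000) (nat_lit 0)
  (DL.cons (nat_lit 0) (nat_lit 0)
  (DL.cons (nat_lit 0x20000000000) (nat_lit 0x80000)
  (DL.cons (nat_lit 0x20000000000) (nat_lit 0)
  (DL.cons (nat_lit 0x40000000000) (nat_lit 0x180000)
  (DL.cons (nat_lit 0x100000) (nat_lit 0x40000000000)
  (DL.cons (nat_lit 0x4000010000000000) (nat_lit 0x38000040000000000)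
  (DL.cons (nat_lit 0x8000000000000000) (nat_lit 0x20000000000000000)
  DL.nil))))))))))
  DLL.nil)

noncomputable def h46_7 : DLL := (DLL.cons (DL.cons (nat_lit 0) (nat_lit 0x20000)
  (DL.cons (nat_lit 0x40000) (nat_lit 0)
  (DL.cons (nat_lit 0x80000) (nat_lit 0)
  (DL.cons (nat_lit 0x80000) (nat_lit 0)
  (DL.cons (nat_lit 0x28000180000) (nat_lit 0x40000000000)
  (DL.cons (nat_lit 0) (nat_lit 0x10000000000)
  (DL.cons (nat_lit 0x80000140000) (nat_lit 0x280000)
  (DL.cons (nat_lit 0x20000000000) (nat_lit 0x80000280000)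
  DL.nil))))))))
  DLL.nil)

noncomputable def h46_8 : DLL := (DLL.cons (DL.cons (nat_lit 0) (nat_lit 0)
  (DL.cons (nat_lit 0) (nat_lit 0)
  (DL.cons (nat_lit 0x100000) (nat_lit 0)
  (DL.cons (nat_lit 0) (nat_lit 0x100000)
  (DL.cons (nat_lit 0xe0000040000) (nat_lit 0x10000380000)
  (DL.cons (nat_lit 0xa0000000000) (nat_lit 0)
  DL.nil))))))
  DLL.nil)

noncomputable def h46_9 : DLL := (DLL.cons (DL.cons (nat_lit 0x20000) (nat_lit 0x80000)
  (DL.cons (nat_lit 0x100000) (nat_lit 0x40000)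
  (DL.cons (nat_lit 0x200000) (nat_lit 0)
  (DL.cons (nat_lit 0x200000) (nat_lit 0)
  DL.nil))))
  DLL.nil)

noncomputable def h47_0 : DLL := (DLL.cons (DL.cons (nat_lit 0) (nat_lit 0)
  (DL.cons (nat_lit 0) (nat_lit 0)
  (DL.cons (nat_lit 0x1) (nat_lit 0)
  (DL.cons (nat_lit 0) (nat_lit 0x1)
  (DL.cons (nat_lit 0x80010) (nat_lit 0x800000)
  (DL.cons (nat_lit 0x800000) (nat_lit 0)
  (DL.cons (nat_lit 0) (nat_lit 0x100)
  (DL.cons (nat_lit 0) (nat_lit 0x8000000)
  (DL.cons (nat_lit 0) (nat_lit 0x4400000000000)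
  (DL.cons (nat_lit 0) (nat_lit 0x4000000001000)
  (DL.cons (nat_lit 0x2000) (nat_lit 0)
  (DL.cons (nat_lit 0) (nat_lit 0x100000000)
  (DL.cons (nat_lit 0xa00004000000004000) (nat_lit 0x1000)
  (DL.cons (nat_lit 0x80000000) (nat_lit 0)
  (DL.cons (nat_lit 0x8000100000000) (nat_lit 0)
  (DL.cons (nat_lit 0x40002000000000a000) (nat_lit 0)
  (DL.cons (nat_lit 0x40000000000000100000000) (nat_lit 0x90000000000000080000000)
  (DL.cons (nat_lit 0x110000000014000880000000) (nat_lit 0x40000200000000)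
  (DL.cons (nat_lit 0x64000000007000) (nat_lit 0xe00010000000028000)
  (DL.cons (nat_lit 0x4000000000400000000) (nat_lit 0x220000000000001000020000)
  (DL.cons (nat_lit 0x100000d0000000000000800000000) (nat_lit 0xd8002200000000f0001680000000)
  DL.nil)))))))))))))))))))))
  (DLL.cons (DL.cons (nat_lit 0) (nat_lit 0x5000)
  (DL.cons (nat_lit 0x6000) (nat_lit 0)
  (DL.cons (nat_lit 0) (nat_lit 0)
  (DL.cons (nat_lit 0x6000) (nat_lit 0x8000)
  (DL.cons (nat_lit 0x800011000) (nat_lit 0)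
  (DL.cons (nat_lit 0x700000000) (nat_lit 0)
  (DL.cons (nat_lit 0) (nat_lit 0x8000)
  (DL.cons (nat_lit 0x200013000) (nat_lit 0x1c00028000)
  DL.nil))))))))
  DLL.nil))

noncomputable def h47_1 : DLL := (DLL.cons (DL.cons (nat_lit 0) (nat_lit 0)
  (DL.cons (nat_lit 0x1) (nat_lit 0)
  (DL.cons (nat_lit 0x10) (nat_lit 0)
  (DL.cons (nat_lit 0) (nat_lit 0)
  (DL.cons (nat_lit 0x8000000) (nat_lit 0x100)
  (DL.cons (nat_lit 0x8000000) (nat_lit 0)
  (DL.cons (nat_lit 0x1000) (nat_lit 0x80000000)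
  (DL.cons (nat_lit 0) (nat_lit 0)
  (DL.cons (nat_lit 0x100000000) (nat_lit 0x4000000000000)
  (DL.cons (nat_lit 0) (nat_lit 0x8000000000000)
  (DL.cons (nat_lit 0x10000000000000) (nat_lit 0x80001000)
  (DL.cons (nat_lit 0) (nat_lit 0x10000280000000)
  (DL.cons (nat_lit 0x400004000000000000) (nat_lit 0x18000000002000)
  (DL.cons (nat_lit 0x2000) (nat_lit 0x1400000000100008000)
  (DL.cons (nat_lit 0x200000000) (nat_lit 0x3c000100000000)
  (DL.cons (nat_lit 0x40000000001000) (nat_lit 0x14000000004000)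
  (DL.cons (nat_lit 0x40000000000000100000000) (nat_lit 0x110005000000001400029000)
  (DL.cons (nat_lit 0x280000000008000000000000) (nat_lit 0x20000000000000)
  (DL.cons (nat_lit 0x9800194000000004000) (nat_lit 0x2600008000000043000)
  DL.nil)))))))))))))))))))
  (DLL.cons (DL.cons (nat_lit 0x2000) (nat_lit 0)
  (DL.cons (nat_lit 0x8000) (nat_lit 0x5000)
  (DL.cons (nat_lit 0) (nat_lit 0)
  (DL.cons (nat_lit 0x24000) (nat_lit 0x1b000)
  (DL.cons (nat_lit 0xa000) (nat_lit 0x400020000)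
  (DL.cons (nat_lit 0x2480000000) (nat_lit 0x100040000)
  DL.nil))))))
  DLL.nil))

noncomputable def h47_2 : DLL := (DLL.cons (DL.cons (nat_lit 0) (nat_lit 0x1)
  (DL.cons (nat_lit 0x10) (nat_lit 0)
  (DL.cons (nat_lit 0x100) (nat_lit 0)
  (DL.cons (nat_lit 0x100) (nat_lit 0)
  (DL.cons (nat_lit 0x80000000) (nat_lit 0x1000)
  (DL.cons (nat_lit 0) (nat_lit 0x80000000)
  (DL.cons (nat_lit 0x1000) (nat_lit 0x100002000)
  (DL.cons (nat_lit 0x100000000) (nat_lit 0x2000)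
  (DL.cons (nat_lit 0x8000000000000) (nat_lit 0x14000200000000)
  (DL.cons (nat_lit 0x10000000001000) (nat_lit 0x4000000000000)
  (DL.cons (nat_lit 0x20000280002000) (nat_lit 0x100000000)
  (DL.cons (nat_lit 0x100000000) (nat_lit 0x28000400000000)
  (DL.cons (nat_lit 0x20006000000000c000) (nat_lit 0x1800014000000003000)
  (DL.cons (nat_lit 0x200000000) (nat_lit 0x200000000000001000)
  (DL.cons (nat_lit 0x4000010000200000000) (nat_lit 0x60000880020000)
  (DL.cons (nat_lit 0x400000000000028000) (nat_lit 0x80000000002000)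
  (DL.cons (nat_lit 0x60003000000003080023000) (nat_lit 0x190008600000000b00048000)
  DL.nil)))))))))))))))))
  (DLL.cons (DL.cons (nat_lit 0x1000) (nat_lit 0x4000)
  (DL.cons (nat_lit 0x32000) (nat_lit 0x5000)
  (DL.cons (nat_lit 0) (nat_lit 0)
  (DL.cons (nat_lit 0x2000) (nat_lit 0x3d000)
  DL.nil))))
  DLL.nil))

noncomputable def h47_3 : DLL := (DLL.cons (DL.cons (nat_lit 0) (nat_lit 0)
  (DL.cons (nat_lit 0) (nat_lit 0)
  (DL.cons (nat_lit 0x1000) (nat_lit 0)
  (DL.cons (nat_lit 0) (nat_lit 0x1000)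
  (DL.cons (nat_lit 0x2000) (nat_lit 0x180000000)
  (DL.cons (nat_lit 0) (nat_lit 0)
  (DL.cons (nat_lit 0x200004000) (nat_lit 0x1000)
  (DL.cons (nat_lit 0) (nat_lit 0)
  (DL.cons (nat_lit 0x20000600008000) (nat_lit 0x10000100000000)
  (DL.cons (nat_lit 0xa000) (nat_lit 0)
  (DL.cons (nat_lit 0xa0000b000) (nat_lit 0x480000000)
  (DL.cons (nat_lit 0x10000000000000) (nat_lit 0x40000000000000)
  (DL.cons (nat_lit 0x200002c000000002000) (nat_lit 0x14000d0000000011000)
  (DL.cons (nat_lit 0x1000000000) (nat_lit 0x4000000000400000000)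
  (DL.cons (nat_lit 0x20000100000000) (nat_lit 0x800000c001e00040000)
  DL.nil)))))))))))))))
  (DLL.cons (DL.cons (nat_lit 0x22000) (nat_lit 0)
  (DL.cons (nat_lit 0x4e000) (nat_lit 0x31000)
  DL.nil))
  DLL.nil))

noncomputable def h47_4 : DLL := (DLL.cons (DL.cons (nat_lit 0) (nat_lit 0)
  (DL.cons (nat_lit 0x1000) (nat_lit 0)
  (DL.cons (nat_lit 0x2000) (nat_lit 0)
  (DL.cons (nat_lit 0) (nat_lit 0)
  (DL.cons (nat_lit 0x80000000) (nat_lit 0x5000)
  (DL.cons (nat_lit 0x200000000) (nat_lit 0x80000000)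
  (DL.cons (nat_lit 0x4000) (nat_lit 0x2000)
  (DL.cons (nat_lit 0x100000000) (nat_lit 0x8000)
  (DL.cons (nat_lit 0x30000200000000) (nat_lit 0xc000000000000)
  (DL.cons (nat_lit 0x40000000004000) (nat_lit 0x14000000010000)
  (DL.cons (nat_lit 0x1a80003000) (nat_lit 0x80000500020000)
  (DL.cons (nat_lit 0x8000400000000) (nat_lit 0x20000000000000)
  (DL.cons (nat_lit 0x8600084000000004000) (nat_lit 0x6800018002000053000)
  DL.nil)))))))))))))
  DLL.nil)

noncomputable def h47_5 : DLL := (DLL.cons (DL.cons (nat_lit 0) (nat_lit 0)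
  (DL.cons (nat_lit 0x4000) (nat_lit 0)
  (DL.cons (nat_lit 0) (nat_lit 0)
  (DL.cons (nat_lit 0x8000) (nat_lit 0)
  (DL.cons (nat_lit 0) (nat_lit 0)
  (DL.cons (nat_lit 0x800000000) (nat_lit 0)
  (DL.cons (nat_lit 0) (nat_lit 0)
  (DL.cons (nat_lit 0) (nat_lit 0x800000000)
  (DL.cons (nat_lit 0) (nat_lit 0x20000000000000)
  (DL.cons (nat_lit 0x50000) (nat_lit 0x20000)
  DL.nil))))))))))
  DLL.nil)

noncomputable def h47_6 : DLL := (DLL.cons (DL.cons (nat_lit 0x4000) (nat_lit 0)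
  (DL.cons (nat_lit 0x8000) (nat_lit 0)
  (DL.cons (nat_lit 0) (nat_lit 0)
  (DL.cons (nat_lit 0) (nat_lit 0x10000)
  (DL.cons (nat_lit 0x800000000) (nat_lit 0)
  (DL.cons (nat_lit 0) (nat_lit 0x20000)
  (DL.cons (nat_lit 0x20000) (nat_lit 0)
  (DL.cons (nat_lit 0x1400000000) (nat_lit 0)
  DL.nil))))))))
  DLL.nil)

noncomputable def h47_7 : DLL := (DLL.cons (DL.cons (nat_lit 0x8000) (nat_lit 0)
  (DL.cons (nat_lit 0x10000) (nat_lit 0)
  (DL.cons (nat_lit 0) (nat_lit 0)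
  (DL.cons (nat_lit 0x30000) (nat_lit 0)
  (DL.cons (nat_lit 0) (nat_lit 0x1000000000)
  (DL.cons (nat_lit 0) (nat_lit 0x2000040000)
  DL.nil))))))
  DLL.nil)

noncomputable def h47_8 : DLL := (DLL.cons (DL.cons (nat_lit 0) (nat_lit 0)
  (DL.cons (nat_lit 0x20000) (nat_lit 0)
  (DL.cons (nat_lit 0) (nat_lit 0)
  (DL.cons (nat_lit 0x8000) (nat_lit 0x70000)
  DL.nil))))
  DLL.nil)

noncomputable def h47_9 : DLL := (DLL.cons (DL.cons (nat_lit 0x20000) (nat_lit 0x8000)
  (DL.cons (nat_lit 0x40000) (nat_lit 0)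
  DL.nil))
  DLL.nil)

noncomputable def h48_0 : DLL := (DLL.cons (DL.cons (nat_lit 0) (nat_lit 0)
  (DL.cons (nat_lit 0x1) (nat_lit 0)
  (DL.cons (nat_lit 0) (nat_lit 0)
  (DL.cons (nat_lit 0x10) (nat_lit 0)
  (DL.cons (nat_lit 0) (nat_lit 0)
  (DL.cons (nat_lit 0) (nat_lit 0)
  (DL.cons (nat_lit 0) (nat_lit 0)
  (DL.cons (nat_lit 0) (nat_lit 0)
  (DL.cons (nat_lit 0x1000000000000) (nat_lit 0)
  (DL.cons (nat_lit 0x2000) (nat_lit 0)
  (DL.cons (nat_lit 0) (nat_lit 0)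
  (DL.cons (nat_lit 0) (nat_lit 0x3000000000000)
  (DL.cons (nat_lit 0) (nat_lit 0)
  (DL.cons (nat_lit 0) (nat_lit 0x180000000)
  (DL.cons (nat_lit 0) (nat_lit 0)
  (DL.cons (nat_lit 0) (nat_lit 0x8000)
  (DL.cons (nat_lit 0) (nat_lit 0x240000000)
  (DL.cons (nat_lit 0x5000000000000) (nat_lit 0x12000000000000)
  (DL.cons (nat_lit 0x100000000000008000) (nat_lit 0x4000)
  DL.nil)))))))))))))))))))
  (DLL.cons (DL.cons (nat_lit 0x1000) (nat_lit 0x4000)
  (DL.cons (nat_lit 0) (nat_lit 0)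
  (DL.cons (nat_lit 0) (nat_lit 0)
  (DL.cons (nat_lit 0x1000) (nat_lit 0x4000)
  (DL.cons (nat_lit 0x480000000) (nat_lit 0x100000000)
  DL.nil)))))
  DLL.nil))

noncomputable def h48_1 : DLL := (DLL.cons (DL.cons (nat_lit 0x1) (nat_lit 0)
  (DL.cons (nat_lit 0x10) (nat_lit 0)
  (DL.cons (nat_lit 0) (nat_lit 0)
  (DL.cons (nat_lit 0) (nat_lit 0x100)
  (DL.cons (nat_lit 0) (nat_lit 0)
  (DL.cons (nat_lit 0x40000000) (nat_lit 0)
  (DL.cons (nat_lit 0) (nat_lit 0)
  (DL.cons (nat_lit 0) (nat_lit 0)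
  (DL.cons (nat_lit 0) (nat_lit 0x2000000000000)
  (DL.cons (nat_lit 0) (nat_lit 0x1000)
  (DL.cons (nat_lit 0x40000000) (nat_lit 0)
  (DL.cons (nat_lit 0) (nat_lit 0)
  (DL.cons (nat_lit 0x100000000000002000) (nat_lit 0x80000000000000000)
  (DL.cons (nat_lit 0x80000000) (nat_lit 0x200000000)
  (DL.cons (nat_lit 0x4000000000000) (nat_lit 0)
  (DL.cons (nat_lit 0) (nat_lit 0x100000000000005000)
  (DL.cons (nat_lit 0x22000000000000400000000) (nat_lit 0x14000000000000300000000)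
  DL.nil)))))))))))))))))
  (DLL.cons (DL.cons (nat_lit 0x8000) (nat_lit 0x2000)
  (DL.cons (nat_lit 0) (nat_lit 0)
  (DL.cons (nat_lit 0) (nat_lit 0)
  (DL.cons (nat_lit 0x18000) (nat_lit 0x6000)
  DL.nil))))
  DLL.nil))

noncomputable def h48_2 : DLL := (DLL.cons (DL.cons (nat_lit 0x10) (nat_lit 0)
  (DL.cons (nat_lit 0x100) (nat_lit 0)
  (DL.cons (nat_lit 0) (nat_lit 0)
  (DL.cons (nat_lit 0) (nat_lit 0x1000)
  (DL.cons (nat_lit 0x40000000) (nat_lit 0)
  (DL.cons (nat_lit 0x80000000) (nat_lit 0)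
  (DL.cons (nat_lit 0) (nat_lit 0x2000)
  (DL.cons (nat_lit 0x40000000) (nat_lit 0x80000000)
  (DL.cons (nat_lit 0) (nat_lit 0x1000000000000)
  (DL.cons (nat_lit 0x6000) (nat_lit 0)
  (DL.cons (nat_lit 0x100000000) (nat_lit 0)
  (DL.cons (nat_lit 0x9000000000000) (nat_lit 0x2000000000000)
  (DL.cons (nat_lit 0x200000000000000000) (nat_lit 0x140000000000009000)
  (DL.cons (nat_lit 0) (nat_lit 0x480000000)
  (DL.cons (nat_lit 0x12000800000000) (nat_lit 0x80000c000000000000)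
  DL.nil)))))))))))))))
  (DLL.cons (DL.cons (nat_lit 0x14000) (nat_lit 0x1000)
  (DL.cons (nat_lit 0x20000) (nat_lit 0)
  DL.nil))
  DLL.nil))

noncomputable def h48_3 : DLL := (DLL.cons (DL.cons (nat_lit 0) (nat_lit 0)
  (DL.cons (nat_lit 0x1000) (nat_lit 0)
  (DL.cons (nat_lit 0) (nat_lit 0)
  (DL.cons (nat_lit 0x2000) (nat_lit 0)
  (DL.cons (nat_lit 0) (nat_lit 0x80000000)
  (DL.cons (nat_lit 0) (nat_lit 0)
  (DL.cons (nat_lit 0x100004000) (nat_lit 0)
  (DL.cons (nat_lit 0) (nat_lit 0)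
  (DL.cons (nat_lit 0x6000200000000) (nat_lit 0x8000000000000)
  (DL.cons (nat_lit 0x3000) (nat_lit 0x8000)
  (DL.cons (nat_lit 0x10000000000000) (nat_lit 0x40000000)
  (DL.cons (nat_lit 0x3000000000000) (nat_lit 0x4000000000000)
  (DL.cons (nat_lit 0x200000000000020000) (nat_lit 0x100000000000014000)
  DL.nil)))))))))))))
  DLL.nil)

noncomputable def h48_4 : DLL := (DLL.cons (DL.cons (nat_lit 0x1000) (nat_lit 0)
  (DL.cons (nat_lit 0x2000) (nat_lit 0)
  (DL.cons (nat_lit 0) (nat_lit 0)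
  (DL.cons (nat_lit 0) (nat_lit 0x1000)
  (DL.cons (nat_lit 0x40004000) (nat_lit 0x100000000)
  (DL.cons (nat_lit 0) (nat_lit 0)
  (DL.cons (nat_lit 0x20000c000) (nat_lit 0)
  (DL.cons (nat_lit 0) (nat_lit 0x240000000)
  (DL.cons (nat_lit 0x1d000000000000) (nat_lit 0)
  (DL.cons (nat_lit 0x17000) (nat_lit 0)
  (DL.cons (nat_lit 0x700020000) (nat_lit 0)
  DL.nil)))))))))))
  DLL.nil)

noncomputable def h48_5 : DLL := (DLL.cons (DL.cons (nat_lit 0) (nat_lit 0)
  (DL.cons (nat_lit 0) (nat_lit 0)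
  (DL.cons (nat_lit 0x4000) (nat_lit 0)
  (DL.cons (nat_lit 0) (nat_lit 0x4000)
  (DL.cons (nat_lit 0x100008000) (nat_lit 0x200000000)
  (DL.cons (nat_lit 0x200000000) (nat_lit 0)
  (DL.cons (nat_lit 0x400000000) (nat_lit 0x10000)
  (DL.cons (nat_lit 0x400000000) (nat_lit 0)
  (DL.cons (nat_lit 0x400000000) (nat_lit 0x4000900000000)
  DL.nil)))))))))
  DLL.nil)

noncomputable def h48_6 : DLL := (DLL.cons (DL.cons (nat_lit 0) (nat_lit 0)
  (DL.cons (nat_lit 0x4000) (nat_lit 0)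
  (DL.cons (nat_lit 0x8000) (nat_lit 0)
  (DL.cons (nat_lit 0) (nat_lit 0)
  (DL.cons (nat_lit 0x400000000) (nat_lit 0x10000)
  (DL.cons (nat_lit 0) (nat_lit 0x400000000)
  (DL.cons (nat_lit 0x800014000) (nat_lit 0x20000)
  DL.nil)))))))
  DLL.nil)

noncomputable def h48_7 : DLL := (DLL.cons (DL.cons (nat_lit 0) (nat_lit 0x4000)
  (DL.cons (nat_lit 0x8000) (nat_lit 0)
  (DL.cons (nat_lit 0x10000) (nat_lit 0)
  (DL.cons (nat_lit 0x10000) (nat_lit 0)
  (DL.cons (nat_lit 0x100020000) (nat_lit 0x800014000)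
  DL.nil)))))
  DLL.nil)

noncomputable def h48_8 : DLL := (DLL.cons (DL.cons (nat_lit 0) (nat_lit 0)
  (DL.cons (nat_lit 0) (nat_lit 0)
  (DL.cons (nat_lit 0x20000) (nat_lit 0)
  DL.nil)))
  DLL.nil)

noncomputable def h48_9 : DLL := (DLL.cons (DL.cons (nat_lit 0x4000) (nat_lit 0x10000)
  DL.nil)
  DLL.nil)

noncomputable def h49_0 : DLL := (DLL.cons (DL.cons (nat_lit 0) (nat_lit 0)
  (DL.cons (nat_lit 0) (nat_lit 0)
  (DL.cons (nat_lit 0x1) (nat_lit 0)
  (DL.cons (nat_lit 0) (nat_lit 0x1)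
  (DL.cons (nat_lit 0x10) (nat_lit 0x40000)
  (DL.cons (nat_lit 0) (nat_lit 0x40000)
  (DL.cons (nat_lit 0) (nat_lit 0x100)
  (DL.cons (nat_lit 0x400000) (nat_lit 0)
  (DL.cons (nat_lit 0) (nat_lit 0x3000000000)
  (DL.cons (nat_lit 0) (nat_lit 0x200)
  (DL.cons (nat_lit 0x400) (nat_lit 0x800000)
  (DL.cons (nat_lit 0) (nat_lit 0x4001000000)
  (DL.cons (nat_lit 0x28000000000800) (nat_lit 0x6000000200)
  (DL.cons (nat_lit 0) (nat_lit 0)
  (DL.cons (nat_lit 0x3000000) (nat_lit 0)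
  (DL.cons (nat_lit 0x10010000001400) (nat_lit 0x40004000000000)
  (DL.cons (nat_lit 0xc0000000000000000) (nat_lit 0x120000000004800000)
  (DL.cons (nat_lit 0x80000002008000000) (nat_lit 0x8000000000)
  DL.nil))))))))))))))))))
  (DLL.cons (DL.cons (nat_lit 0xa00) (nat_lit 0)
  (DL.cons (nat_lit 0x800) (nat_lit 0x200)
  (DL.cons (nat_lit 0) (nat_lit 0)
  (DL.cons (nat_lit 0x200) (nat_lit 0x400)
  (DL.cons (nat_lit 0x800) (nat_lit 0x8800200)
  DL.nil)))))
  DLL.nil))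

noncomputable def h49_1 : DLL := (DLL.cons (DL.cons (nat_lit 0) (nat_lit 0)
  (DL.cons (nat_lit 0x1) (nat_lit 0)
  (DL.cons (nat_lit 0x10) (nat_lit 0)
  (DL.cons (nat_lit 0) (nat_lit 0)
  (DL.cons (nat_lit 0x400000) (nat_lit 0x100)
  (DL.cons (nat_lit 0) (nat_lit 0)
  (DL.cons (nat_lit 0x200) (nat_lit 0x800000)
  (DL.cons (nat_lit 0x800000) (nat_lit 0)
  (DL.cons (nat_lit 0x1000000) (nat_lit 0x800000)
  (DL.cons (nat_lit 0) (nat_lit 0x4000000000)
  (DL.cons (nat_lit 0x8000000000) (nat_lit 0x800200)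
  (DL.cons (nat_lit 0) (nat_lit 0xa002000000)
  (DL.cons (nat_lit 0x30000000000800) (nat_lit 0x400)
  (DL.cons (nat_lit 0x5000400) (nat_lit 0x50000000001000)
  (DL.cons (nat_lit 0x2000000) (nat_lit 0x8005000000)
  (DL.cons (nat_lit 0x20022000000200) (nat_lit 0)
  DL.nil))))))))))))))))
  (DLL.cons (DL.cons (nat_lit 0) (nat_lit 0x400)
  (DL.cons (nat_lit 0) (nat_lit 0x1800)
  DL.nil))
  DLL.nil))

noncomputable def h49_2 : DLL := (DLL.cons (DL.cons (nat_lit 0) (nat_lit 0x1)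
  (DL.cons (nat_lit 0x10) (nat_lit 0)
  (DL.cons (nat_lit 0x100) (nat_lit 0)
  (DL.cons (nat_lit 0x100) (nat_lit 0)
  (DL.cons (nat_lit 0xc00000) (nat_lit 0x200)
  (DL.cons (nat_lit 0x800000) (nat_lit 0)
  (DL.cons (nat_lit 0x200) (nat_lit 0x1000400)
  (DL.cons (nat_lit 0) (nat_lit 0x400)
  (DL.cons (nat_lit 0) (nat_lit 0xa002000000)
  (DL.cons (nat_lit 0x2000000200) (nat_lit 0)
  (DL.cons (nat_lit 0x10000000400) (nat_lit 0x1800000)
  (DL.cons (nat_lit 0x4000000) (nat_lit 0x1000000)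
  (DL.cons (nat_lit 0x48030000001800) (nat_lit 0x2000c000000600)
  (DL.cons (nat_lit 0xa000000) (nat_lit 0x8000000800200)
  DL.nil))))))))))))))
  (DLL.cons (DL.cons (nat_lit 0x2200) (nat_lit 0x800)
  DL.nil)
  DLL.nil))

noncomputable def h49_3 : DLL := (DLL.cons (DL.cons (nat_lit 0) (nat_lit 0)
  (DL.cons (nat_lit 0) (nat_lit 0)
  (DL.cons (nat_lit 0x200) (nat_lit 0)
  (DL.cons (nat_lit 0) (nat_lit 0x200)
  (DL.cons (nat_lit 0x800400) (nat_lit 0x1000000)
  (DL.cons (nat_lit 0x1000000) (nat_lit 0)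
  (DL.cons (nat_lit 0x2000800) (nat_lit 0x200)
  (DL.cons (nat_lit 0x2000000) (nat_lit 0x800000)
  (DL.cons (nat_lit 0x10004001000) (nat_lit 0x2003000000)
  (DL.cons (nat_lit 0x1400) (nat_lit 0x10000000000)
  (DL.cons (nat_lit 0xe001600) (nat_lit 0x800000)
  (DL.cons (nat_lit 0x28000800000) (nat_lit 0x2000000000)
  DL.nil))))))))))))
  DLL.nil)

noncomputable def h49_4 : DLL := (DLL.cons (DL.cons (nat_lit 0) (nat_lit 0)
  (DL.cons (nat_lit 0x200) (nat_lit 0)
  (DL.cons (nat_lit 0x400) (nat_lit 0)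
  (DL.cons (nat_lit 0) (nat_lit 0)
  (DL.cons (nat_lit 0x800000) (nat_lit 0xa00)
  (DL.cons (nat_lit 0x2800000) (nat_lit 0)
  (DL.cons (nat_lit 0) (nat_lit 0xc00)
  (DL.cons (nat_lit 0) (nat_lit 0x4001000)
  (DL.cons (nat_lit 0x8006000000) (nat_lit 0x12001000000)
  (DL.cons (nat_lit 0x8000000800) (nat_lit 0x22000002000)
  DL.nil))))))))))
  DLL.nil)

noncomputable def h49_5 : DLL := (DLL.cons (DL.cons (nat_lit 0) (nat_lit 0)
  (DL.cons (nat_lit 0x800) (nat_lit 0)
  (DL.cons (nat_lit 0) (nat_lit 0)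
  (DL.cons (nat_lit 0x1000) (nat_lit 0)
  (DL.cons (nat_lit 0) (nat_lit 0x4000000)
  (DL.cons (nat_lit 0x8000000) (nat_lit 0)
  DL.nil))))))
  DLL.nil)

noncomputable def h49_6 : DLL := (DLL.cons (DL.cons (nat_lit 0x800) (nat_lit 0)
  (DL.cons (nat_lit 0x1000) (nat_lit 0)
  (DL.cons (nat_lit 0) (nat_lit 0)
  (DL.cons (nat_lit 0) (nat_lit 0x2000)
  (DL.cons (nat_lit 0) (nat_lit 0x8000000)
  DL.nil)))))
  DLL.nil)

noncomputable def h49_7 : DLL := (DLL.cons (DL.cons (nat_lit 0x1000) (nat_lit 0)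
  (DL.cons (nat_lit 0x2000) (nat_lit 0)
  DL.nil))
  DLL.nil)

noncomputable def h49_8 : DLL := DLL.nil

noncomputable def h50_0 : DLL := (DLL.cons (DL.cons (nat_lit 0) (nat_lit 0)
  (DL.cons (nat_lit 0x1) (nat_lit 0)
  (DL.cons (nat_lit 0) (nat_lit 0)
  (DL.cons (nat_lit 0x10) (nat_lit 0)
  (DL.cons (nat_lit 0x4000) (nat_lit 0)
  (DL.cons (nat_lit 0) (nat_lit 0)
  (DL.cons (nat_lit 0) (nat_lit 0)
  (DL.cons (nat_lit 0) (nat_lit 0)
  (DL.cons (nat_lit 0) (nat_lit 0x4000000)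
  (DL.cons (nat_lit 0x80) (nat_lit 0)
  (DL.cons (nat_lit 0) (nat_lit 0)
  (DL.cons (nat_lit 0x8000000) (nat_lit 0)
  (DL.cons (nat_lit 0) (nat_lit 0)
  (DL.cons (nat_lit 0) (nat_lit 0x60000)
  (DL.cons (nat_lit 0x8000000) (nat_lit 0x10000000)
  (DL.cons (nat_lit 0x8000000000) (nat_lit 0x200)
  DL.nil))))))))))))))))
  (DLL.cons (DL.cons (nat_lit 0) (nat_lit 0x180)
  DL.nil)
  DLL.nil))

noncomputable def h50_1 : DLL := (DLL.cons (DL.cons (nat_lit 0x1) (nat_lit 0)
  (DL.cons (nat_lit 0x10) (nat_lit 0)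
  (DL.cons (nat_lit 0) (nat_lit 0)
  (DL.cons (nat_lit 0) (nat_lit 0x20)
  (DL.cons (nat_lit 0) (nat_lit 0x8000)
  (DL.cons (nat_lit 0x10000) (nat_lit 0)
  (DL.cons (nat_lit 0) (nat_lit 0)
  (DL.cons (nat_lit 0) (nat_lit 0x10000)
  (DL.cons (nat_lit 0) (nat_lit 0)
  (DL.cons (nat_lit 0) (nat_lit 0x40)
  (DL.cons (nat_lit 0) (nat_lit 0x10000)
  (DL.cons (nat_lit 0xc000000) (nat_lit 0)
  (DL.cons (nat_lit 0x80) (nat_lit 0x2000000100)
  (DL.cons (nat_lit 0xa0000) (nat_lit 0)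
  DL.nil))))))))))))))
  (DLL.cons (DL.cons (nat_lit 0x240) (nat_lit 0)
  DL.nil)
  DLL.nil))

noncomputable def h50_2 : DLL := (DLL.cons (DL.cons (nat_lit 0x10) (nat_lit 0)
  (DL.cons (nat_lit 0x20) (nat_lit 0)
  (DL.cons (nat_lit 0) (nat_lit 0)
  (DL.cons (nat_lit 0) (nat_lit 0x40)
  (DL.cons (nat_lit 0) (nat_lit 0)
  (DL.cons (nat_lit 0x20000) (nat_lit 0)
  (DL.cons (nat_lit 0) (nat_lit 0x80)
  (DL.cons (nat_lit 0x10000) (nat_lit 0x20000)
  (DL.cons (nat_lit 0) (nat_lit 0)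
  (DL.cons (nat_lit 0x180) (nat_lit 0)
  (DL.cons (nat_lit 0x20000) (nat_lit 0x40000)
  (DL.cons (nat_lit 0x8000000) (nat_lit 0x4000000)
  DL.nil))))))))))))
  DLL.nil)

noncomputable def h50_3 : DLL := (DLL.cons (DL.cons (nat_lit 0) (nat_lit 0)
  (DL.cons (nat_lit 0x40) (nat_lit 0)
  (DL.cons (nat_lit 0) (nat_lit 0)
  (DL.cons (nat_lit 0x80) (nat_lit 0)
  (DL.cons (nat_lit 0) (nat_lit 0)
  (DL.cons (nat_lit 0) (nat_lit 0)
  (DL.cons (nat_lit 0x40100) (nat_lit 0)
  (DL.cons (nat_lit 0) (nat_lit 0)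
  (DL.cons (nat_lit 0x10080000) (nat_lit 0x20000000)
  (DL.cons (nat_lit 0xc0) (nat_lit 0x200)
  DL.nil))))))))))
  DLL.nil)

noncomputable def h50_4 : DLL := (DLL.cons (DL.cons (nat_lit 0x40) (nat_lit 0)
  (DL.cons (nat_lit 0x80) (nat_lit 0)
  (DL.cons (nat_lit 0) (nat_lit 0)
  (DL.cons (nat_lit 0) (nat_lit 0x40)
  (DL.cons (nat_lit 0x100) (nat_lit 0x40000)
  (DL.cons (nat_lit 0) (nat_lit 0)
  (DL.cons (nat_lit 0x80200) (nat_lit 0)
  (DL.cons (nat_lit 0x80000) (nat_lit 0x30000)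
  DL.nil))))))))
  DLL.nil)

noncomputable def h50_5 : DLL := (DLL.cons (DL.cons (nat_lit 0) (nat_lit 0)
  (DL.cons (nat_lit 0) (nat_lit 0)
  (DL.cons (nat_lit 0x100) (nat_lit 0)
  (DL.cons (nat_lit 0) (nat_lit 0x100)
  (DL.cons (nat_lit 0x200) (nat_lit 0xc0000)
  DL.nil)))))
  DLL.nil)

noncomputable def h50_6 : DLL := (DLL.cons (DL.cons (nat_lit 0) (nat_lit 0)
  (DL.cons (nat_lit 0x100) (nat_lit 0)
  (DL.cons (nat_lit 0x200) (nat_lit 0)
  DL.nil)))
  DLL.nil)

noncomputable def h50_7 : DLL := (DLL.cons (DL.cons (nat_lit 0) (nat_lit 0x100)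
  (DL.cons (nat_lit 0x200) (nat_lit 0)
  DL.nil))
  DLL.nil)

noncomputable def h51_0 : DLL := (DLL.cons (DL.cons (nat_lit 0) (nat_lit 0)
  (DL.cons (nat_lit 0) (nat_lit 0)
  (DL.cons (nat_lit 0x1) (nat_lit 0)
  (DL.cons (nat_lit 0) (nat_lit 0x1)
  (DL.cons (nat_lit 0x2) (nat_lit 0x180)
  (DL.cons (nat_lit 0) (nat_lit 0)
  (DL.cons (nat_lit 0) (nat_lit 0x4)
  (DL.cons (nat_lit 0) (nat_lit 0)
  (DL.cons (nat_lit 0) (nat_lit 0x20000)
  (DL.cons (nat_lit 0x20000) (nat_lit 0x8)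
  (DL.cons (nat_lit 0x410) (nat_lit 0)
  (DL.cons (nat_lit 0x40000) (nat_lit 0x800)
  (DL.cons (nat_lit 0x5040020) (nat_lit 0x8)
  (DL.cons (nat_lit 0) (nat_lit 0x400)
  (DL.cons (nat_lit 0x20800) (nat_lit 0x41000)
  DL.nil)))))))))))))))
  (DLL.cons (DL.cons (nat_lit 0) (nat_lit 0)
  (DL.cons (nat_lit 0x20) (nat_lit 0x18)
  DL.nil))
  DLL.nil))

noncomputable def h51_1 : DLL := (DLL.cons (DL.cons (nat_lit 0) (nat_lit 0)
  (DL.cons (nat_lit 0x1) (nat_lit 0)
  (DL.cons (nat_lit 0x2) (nat_lit 0)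
  (DL.cons (nat_lit 0) (nat_lit 0)
  (DL.cons (nat_lit 0x200) (nat_lit 0x4)
  (DL.cons (nat_lit 0) (nat_lit 0x200)
  (DL.cons (nat_lit 0x8) (nat_lit 0x400)
  (DL.cons (nat_lit 0) (nat_lit 0x400)
  (DL.cons (nat_lit 0xc00) (nat_lit 0)
  (DL.cons (nat_lit 0) (nat_lit 0x40000)
  (DL.cons (nat_lit 0x80000) (nat_lit 0x408)
  (DL.cons (nat_lit 0x20400) (nat_lit 0x81000)
  (DL.cons (nat_lit 0x2060000) (nat_lit 0x4000030)
  DL.nil)))))))))))))
  DLL.nil)

noncomputable def h51_2 : DLL := (DLL.cons (DL.cons (nat_lit 0) (nat_lit 0x1)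
  (DL.cons (nat_lit 0x2) (nat_lit 0)
  (DL.cons (nat_lit 0x4) (nat_lit 0)
  (DL.cons (nat_lit 0x4) (nat_lit 0)
  (DL.cons (nat_lit 0x400) (nat_lit 0x208)
  (DL.cons (nat_lit 0) (nat_lit 0)
  (DL.cons (nat_lit 0x8) (nat_lit 0x810)
  (DL.cons (nat_lit 0) (nat_lit 0x810)
  (DL.cons (nat_lit 0) (nat_lit 0xa1000)
  (DL.cons (nat_lit 0x8) (nat_lit 0x80000)
  (DL.cons (nat_lit 0x101010) (nat_lit 0x800)
  DL.nil)))))))))))
  DLL.nil)

noncomputable def h51_3 : DLL := (DLL.cons (DL.cons (nat_lit 0) (nat_lit 0)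
  (DL.cons (nat_lit 0) (nat_lit 0)
  (DL.cons (nat_lit 0x8) (nat_lit 0)
  (DL.cons (nat_lit 0) (nat_lit 0x8)
  (DL.cons (nat_lit 0x10) (nat_lit 0x800)
  (DL.cons (nat_lit 0) (nat_lit 0x800)
  (DL.cons (nat_lit 0x1020) (nat_lit 0x8)
  (DL.cons (nat_lit 0x400) (nat_lit 0x1000)
  (DL.cons (nat_lit 0x102040) (nat_lit 0xa0800)
  DL.nil)))))))))
  DLL.nil)

noncomputable def h51_4 : DLL := (DLL.cons (DL.cons (nat_lit 0) (nat_lit 0)
  (DL.cons (nat_lit 0x8) (nat_lit 0)
  (DL.cons (nat_lit 0x10) (nat_lit 0)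
  (DL.cons (nat_lit 0) (nat_lit 0)
  (DL.cons (nat_lit 0x400) (nat_lit 0x28)
  (DL.cons (nat_lit 0x1000) (nat_lit 0)
  (DL.cons (nat_lit 0) (nat_lit 0x10)
  DL.nil)))))))
  DLL.nil)

noncomputable def h51_5 : DLL := (DLL.cons (DL.cons (nat_lit 0) (nat_lit 0)
  (DL.cons (nat_lit 0x20) (nat_lit 0)
  (DL.cons (nat_lit 0) (nat_lit 0)
  (DL.cons (nat_lit 0x40) (nat_lit 0)
  DL.nil))))
  DLL.nil)

noncomputable def h51_6 : DLL := (DLL.cons (DL.cons (nat_lit 0x20) (nat_lit 0)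
  (DL.cons (nat_lit 0x40) (nat_lit 0)
  DL.nil))
  DLL.nil)

noncomputable def h52_0 : DLL := (DLL.cons (DL.cons (nat_lit 0) (nat_lit 0)
  (DL.cons (nat_lit 0x1) (nat_lit 0)
  (DL.cons (nat_lit 0) (nat_lit 0)
  (DL.cons (nat_lit 0x2) (nat_lit 0)
  (DL.cons (nat_lit 0) (nat_lit 0x80)
  (DL.cons (nat_lit 0) (nat_lit 0)
  (DL.cons (nat_lit 0) (nat_lit 0)
  (DL.cons (nat_lit 0) (nat_lit 0)
  (DL.cons (nat_lit 0) (nat_lit 0)
  (DL.cons (nat_lit 0x10) (nat_lit 0)
  (DL.cons (nat_lit 0) (nat_lit 0)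
  (DL.cons (nat_lit 0x8000) (nat_lit 0)
  DL.nil))))))))))))
  DLL.nil)

noncomputable def h52_1 : DLL := (DLL.cons (DL.cons (nat_lit 0x1) (nat_lit 0)
  (DL.cons (nat_lit 0x2) (nat_lit 0)
  (DL.cons (nat_lit 0) (nat_lit 0)
  (DL.cons (nat_lit 0) (nat_lit 0x4)
  (DL.cons (nat_lit 0x100) (nat_lit 0)
  (DL.cons (nat_lit 0x200) (nat_lit 0)
  (DL.cons (nat_lit 0) (nat_lit 0)
  (DL.cons (nat_lit 0x200) (nat_lit 0)
  (DL.cons (nat_lit 0x10000) (nat_lit 0)
  (DL.cons (nat_lit 0) (nat_lit 0x8)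
  DL.nil))))))))))
  DLL.nil)

noncomputable def h52_2 : DLL := (DLL.cons (DL.cons (nat_lit 0x2) (nat_lit 0)
  (DL.cons (nat_lit 0x4) (nat_lit 0)
  (DL.cons (nat_lit 0) (nat_lit 0)
  (DL.cons (nat_lit 0) (nat_lit 0x8)
  (DL.cons (nat_lit 0) (nat_lit 0x200)
  (DL.cons (nat_lit 0x400) (nat_lit 0)
  (DL.cons (nat_lit 0) (nat_lit 0x10)
  (DL.cons (nat_lit 0x200) (nat_lit 0x400)
  (DL.cons (nat_lit 0x8000) (nat_lit 0)
  DL.nil)))))))))
  DLL.nil)

noncomputable def h52_3 : DLL := (DLL.cons (DL.cons (nat_lit 0) (nat_lit 0)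
  (DL.cons (nat_lit 0x8) (nat_lit 0)
  (DL.cons (nat_lit 0) (nat_lit 0)
  (DL.cons (nat_lit 0x10) (nat_lit 0)
  (DL.cons (nat_lit 0x400) (nat_lit 0)
  (DL.cons (nat_lit 0) (nat_lit 0)
  (DL.cons (nat_lit 0x820) (nat_lit 0)
  DL.nil)))))))
  DLL.nil)

noncomputable def h52_4 : DLL := (DLL.cons (DL.cons (nat_lit 0x8) (nat_lit 0)
  (DL.cons (nat_lit 0x10) (nat_lit 0)
  (DL.cons (nat_lit 0) (nat_lit 0)
  (DL.cons (nat_lit 0) (nat_lit 0x8)
  (DL.cons (nat_lit 0x20) (nat_lit 0xa00)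
  DL.nil)))))
  DLL.nil)

noncomputable def h52_5 : DLL := (DLL.cons (DL.cons (nat_lit 0) (nat_lit 0)
  (DL.cons (nat_lit 0) (nat_lit 0)
  (DL.cons (nat_lit 0x20) (nat_lit 0)
  DL.nil)))
  DLL.nil)

noncomputable def h52_6 : DLL := DLL.nil

noncomputable def h53_0 : DLL := (DLL.cons (DL.cons (nat_lit 0) (nat_lit 0)
  (DL.cons (nat_lit 0) (nat_lit 0)
  (DL.cons (nat_lit 0x1) (nat_lit 0)
  (DL.cons (nat_lit 0) (nat_lit 0x1)
  (DL.cons (nat_lit 0x22) (nat_lit 0x40)
  (DL.cons (nat_lit 0x40) (nat_lit 0)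
  (DL.cons (nat_lit 0) (nat_lit 0x4)
  (DL.cons (nat_lit 0) (nat_lit 0x80)
  (DL.cons (nat_lit 0) (nat_lit 0x3000)
  (DL.cons (nat_lit 0) (nat_lit 0x2008)
  (DL.cons (nat_lit 0x10) (nat_lit 0)
  (DL.cons (nat_lit 0) (nat_lit 0x200)
  DL.nil))))))))))))
  DLL.nil)

noncomputable def h53_1 : DLL := (DLL.cons (DL.cons (nat_lit 0) (nat_lit 0)
  (DL.cons (nat_lit 0x1) (nat_lit 0)
  (DL.cons (nat_lit 0x2) (nat_lit 0)
  (DL.cons (nat_lit 0) (nat_lit 0)
  (DL.cons (nat_lit 0x80) (nat_lit 0x4)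
  (DL.cons (nat_lit 0x80) (nat_lit 0)
  (DL.cons (nat_lit 0x8) (nat_lit 0x100)
  (DL.cons (nat_lit 0) (nat_lit 0)
  (DL.cons (nat_lit 0x200) (nat_lit 0x2000)
  (DL.cons (nat_lit 0) (nat_lit 0x4000)
  DL.nil))))))))))
  DLL.nil)

noncomputable def h53_2 : DLL := (DLL.cons (DL.cons (nat_lit 0) (nat_lit 0x1)
  (DL.cons (nat_lit 0x2) (nat_lit 0)
  (DL.cons (nat_lit 0x4) (nat_lit 0)
  (DL.cons (nat_lit 0x4) (nat_lit 0)
  (DL.cons (nat_lit 0x100) (nat_lit 0x8)
  (DL.cons (nat_lit 0) (nat_lit 0x100)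
  (DL.cons (nat_lit 0x8) (nat_lit 0x210)
  (DL.cons (nat_lit 0x200) (nat_lit 0x10)
  DL.nil))))))))
  DLL.nil)

noncomputable def h53_3 : DLL := (DLL.cons (DL.cons (nat_lit 0) (nat_lit 0)
  (DL.cons (nat_lit 0) (nat_lit 0)
  (DL.cons (nat_lit 0x8) (nat_lit 0)
  (DL.cons (nat_lit 0) (nat_lit 0x8)
  (DL.cons (nat_lit 0x10) (nat_lit 0x300)
  DL.nil)))))
  DLL.nil)

noncomputable def h53_4 : DLL := (DLL.cons (DL.cons (nat_lit 0) (nat_lit 0)
  (DL.cons (nat_lit 0x8) (nat_lit 0)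
  (DL.cons (nat_lit 0x10) (nat_lit 0)
  DL.nil)))
  DLL.nil)

noncomputable def h53_5 : DLL := DLL.nil

noncomputable def h54_0 : DLL := (DLL.cons (DL.cons (nat_lit 0) (nat_lit 0)
  (DL.cons (nat_lit 0x1) (nat_lit 0)
  (DL.cons (nat_lit 0) (nat_lit 0)
  (DL.cons (nat_lit 0x2) (nat_lit 0)
  (DL.cons (nat_lit 0) (nat_lit 0)
  (DL.cons (nat_lit 0) (nat_lit 0)
  (DL.cons (nat_lit 0) (nat_lit 0)
  (DL.cons (nat_lit 0) (nat_lit 0)
  (DL.cons (nat_lit 0x2000) (nat_lit 0)
  (DL.cons (nat_lit 0x10) (nat_lit 0)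
  DL.nil))))))))))
  DLL.nil)

noncomputable def h54_1 : DLL := (DLL.cons (DL.cons (nat_lit 0x1) (nat_lit 0)
  (DL.cons (nat_lit 0x2) (nat_lit 0)
  (DL.cons (nat_lit 0) (nat_lit 0)
  (DL.cons (nat_lit 0) (nat_lit 0x4)
  (DL.cons (nat_lit 0) (nat_lit 0)
  (DL.cons (nat_lit 0x100) (nat_lit 0)
  DL.nil))))))
  DLL.nil)

noncomputable def h54_2 : DLL := (DLL.cons (DL.cons (nat_lit 0x2) (nat_lit 0)
  (DL.cons (nat_lit 0x4) (nat_lit 0)
  (DL.cons (nat_lit 0) (nat_lit 0)
  (DL.cons (nat_lit 0) (nat_lit 0x8)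
  (DL.cons (nat_lit 0x100) (nat_lit 0)
  (DL.cons (nat_lit 0x200) (nat_lit 0)
  DL.nil))))))
  DLL.nil)

noncomputable def h54_3 : DLL := (DLL.cons (DL.cons (nat_lit 0) (nat_lit 0)
  (DL.cons (nat_lit 0x8) (nat_lit 0)
  (DL.cons (nat_lit 0) (nat_lit 0)
  (DL.cons (nat_lit 0x10) (nat_lit 0)
  DL.nil))))
  DLL.nil)

noncomputable def h54_4 : DLL := (DLL.cons (DL.cons (nat_lit 0x8) (nat_lit 0)
  (DL.cons (nat_lit 0x10) (nat_lit 0)
  DL.nil))
  DLL.nil)

noncomputable def h55_0 : DLL := (DLL.cons (DL.cons (nat_lit 0) (nat_lit 0)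
  (DL.cons (nat_lit 0) (nat_lit 0)
  (DL.cons (nat_lit 0x1) (nat_lit 0)
  (DL.cons (nat_lit 0) (nat_lit 0x1)
  (DL.cons (nat_lit 0x2) (nat_lit 0x20)
  (DL.cons (nat_lit 0) (nat_lit 0x20)
  (DL.cons (nat_lit 0) (nat_lit 0x4)
  (DL.cons (nat_lit 0x40) (nat_lit 0)
  (DL.cons (nat_lit 0) (nat_lit 0xc00)
  DL.nil)))))))))
  DLL.nil)

noncomputable def h55_1 : DLL := (DLL.cons (DL.cons (nat_lit 0) (nat_lit 0)
  (DL.cons (nat_lit 0x1) (nat_lit 0)
  (DL.cons (nat_lit 0x2) (nat_lit 0)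
  (DL.cons (nat_lit 0) (nat_lit 0)
  (DL.cons (nat_lit 0x40) (nat_lit 0x4)
  (DL.cons (nat_lit 0) (nat_lit 0)
  (DL.cons (nat_lit 0x8) (nat_lit 0x80)
  DL.nil)))))))
  DLL.nil)

noncomputable def h55_2 : DLL := (DLL.cons (DL.cons (nat_lit 0) (nat_lit 0x1)
  (DL.cons (nat_lit 0x2) (nat_lit 0)
  (DL.cons (nat_lit 0x4) (nat_lit 0)
  (DL.cons (nat_lit 0x4) (nat_lit 0)
  (DL.cons (nat_lit 0xc0) (nat_lit 0x8)
  DL.nil)))))
  DLL.nil)

noncomputable def h55_3 : DLL := (DLL.cons (DL.cons (nat_lit 0) (nat_lit 0)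
  (DL.cons (nat_lit 0) (nat_lit 0)
  (DL.cons (nat_lit 0x8) (nat_lit 0)
  DL.nil)))
  DLL.nil)

noncomputable def h55_4 : DLL := DLL.nil

noncomputable def h56_0 : DLL := (DLL.cons (DL.cons (nat_lit 0) (nat_lit 0)
  (DL.cons (nat_lit 0x1) (nat_lit 0)
  (DL.cons (nat_lit 0) (nat_lit 0)
  (DL.cons (nat_lit 0x2) (nat_lit 0)
  (DL.cons (nat_lit 0x10) (nat_lit 0)
  DL.nil)))))
  DLL.nil)

noncomputable def h56_1 : DLL := (DLL.cons (DL.cons (nat_lit 0x1) (nat_lit 0)
  (DL.cons (nat_lit 0x2) (nat_lit 0)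
  (DL.cons (nat_lit 0) (nat_lit 0)
  (DL.cons (nat_lit 0) (nat_lit 0x4)
  (DL.cons (nat_lit 0) (nat_lit 0x20)
  DL.nil)))))
  DLL.nil)

noncomputable def h56_2 : DLL := (DLL.cons (DL.cons (nat_lit 0x2) (nat_lit 0)
  (DL.cons (nat_lit 0x4) (nat_lit 0)
  DL.nil))
  DLL.nil)

noncomputable def h56_3 : DLL := DLL.nil

noncomputable def h57_0 : DLL := (DLL.cons (DL.cons (nat_lit 0) (nat_lit 0)
  (DL.cons (nat_lit 0) (nat_lit 0)
  (DL.cons (nat_lit 0x1) (nat_lit 0)
  (DL.cons (nat_lit 0) (nat_lit 0x1)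
  (DL.cons (nat_lit 0x2) (nat_lit 0xc)
  DL.nil)))))
  DLL.nil)

noncomputable def h57_1 : DLL := (DLL.cons (DL.cons (nat_lit 0) (nat_lit 0)
  (DL.cons (nat_lit 0x1) (nat_lit 0)
  (DL.cons (nat_lit 0x2) (nat_lit 0)
  DL.nil)))
  DLL.nil)

noncomputable def h57_2 : DLL := (DLL.cons (DL.cons (nat_lit 0) (nat_lit 0x1)
  (DL.cons (nat_lit 0x2) (nat_lit 0)
  DL.nil))
  DLL.nil)

noncomputable def h58_0 : DLL := (DLL.cons (DL.cons (nat_lit 0) (nat_lit 0)
  (DL.cons (nat_lit 0x1) (nat_lit 0)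
  (DL.cons (nat_lit 0) (nat_lit 0)
  (DL.cons (nat_lit 0x2) (nat_lit 0)
  DL.nil))))
  DLL.nil)

noncomputable def h58_1 : DLL := (DLL.cons (DL.cons (nat_lit 0x1) (nat_lit 0)
  (DL.cons (nat_lit 0x2) (nat_lit 0)
  DL.nil))
  DLL.nil)

noncomputable def h59_0 : DLL := (DLL.cons (DL.cons (nat_lit 0) (nat_lit 0)
  (DL.cons (nat_lit 0) (nat_lit 0)
  (DL.cons (nat_lit 0x1) (nat_lit 0)
  DL.nil)))
  DLL.nil)

noncomputable def h59_1 : DLL := DLL.nil

end Vale.Agent.P236JD
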