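import Vale.Agent.P236JD.H0x0
import Vale.Agent.P236JD.H2x8
import Vale.Agent.P236JD.H3x4
import Vale.Agent.P236JD.H3x15
import Vale.Agent.P236JD.H4x4
import Vale.Agent.P236JD.H4x13
import Vale.Agent.P236JD.H5x2
import Vale.Agent.P236JD.H5x10
import Vale.Agent.P236JD.H6x2
import Vale.Agent.P236JD.H6x14
import Vale.Agent.P236JD.H7x6
import Vale.Agent.P236JD.H8x4
import Vale.Agent.P236JD.H9x2
import Vale.Agent.P236JD.H10x1
import Vale.Agent.P236JD.H11x1
import Vale.Agent.P236JD.H12x3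
import Vale.Agent.P236JD.H13x10
import Vale.Agent.P236JD.H15x11
import Vale.Agent.P236JD.H18x7
import Vale.Agent.P236JD.H23x1
import Vale.Agent.P236JD.H42x4

/-!
# P236JD / the tables of the lifted resolution (generated)
-/

namespace Vale.Agent.P236JD

open Vale.Agent.P236KE

noncomputable def H0 : List DLL :=
  [h0_0]

noncomputable def H1 : List DLL :=
  [h1_0, h1_1, h1_2, h1_3, h1_4]

noncomputable def H2 : List DLL :=
  [h2_0, h2_1, h2_2, h2_3, h2_4, h2_5, h2_6, h2_7, h2_8, h2_9, h2_10, h2_11, h2_12, h2_13,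
   h2_14, h2_15]

noncomputable def H3 : List DLL :=
  [h3_0, h3_1, h3_2, h3_3, h3_4, h3_5, h3_6, h3_7, h3_8, h3_9, h3_10, h3_11, h3_12, h3_13,
   h3_14, h3_15, h3_16, h3_17, h3_18, h3_19, h3_20, h3_21, h3_22, h3_23, h3_24, h3_25, h3_26,
   h3_27, h3_28, h3_29, h3_30]

noncomputable def H4 : List DLL :=
  [h4_0, h4_1, h4_2, h4_3, h4_4, h4_5, h4_6, h4_7, h4_8, h4_9, h4_10, h4_11, h4_12, h4_13,
   h4_14, h4_15, h4_16, h4_17, h4_18, h4_19, h4_20, h4_21, h4_22, h4_23, h4_24, h4_25, h4_26,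
   h4_27, h4_28, h4_29, h4_30, h4_31, h4_32, h4_33, h4_34, h4_35, h4_36, h4_37, h4_38, h4_39,
   h4_40]

noncomputable def H5 : List DLL :=
  [h5_0, h5_1, h5_2, h5_3, h5_4, h5_5, h5_6, h5_7, h5_8, h5_9, h5_10, h5_11, h5_12, h5_13,
   h5_14, h5_15, h5_16, h5_17, h5_18, h5_19, h5_20, h5_21, h5_22, h5_23, h5_24, h5_25, h5_26,
   h5_27, h5_28, h5_29, h5_30, h5_31, h5_32, h5_33, h5_34, h5_35, h5_36, h5_37, h5_38, h5_39,
   h5_40, h5_41, h5_42, h5_43, h5_44]

noncomputable def H6 : List DLL :=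
  [h6_0, h6_1, h6_2, h6_3, h6_4, h6_5, h6_6, h6_7, h6_8, h6_9, h6_10, h6_11, h6_12, h6_13,
   h6_14, h6_15, h6_16, h6_17, h6_18, h6_19, h6_20, h6_21, h6_22, h6_23, h6_24, h6_25, h6_26,
   h6_27, h6_28, h6_29, h6_30, h6_31, h6_32, h6_33, h6_34, h6_35, h6_36, h6_37, h6_38, h6_39,
   h6_40, h6_41, h6_42, h6_43]

noncomputable def H7 : List DLL :=
  [h7_0, h7_1, h7_2, h7_3, h7_4, h7_5, h7_6, h7_7, h7_8, h7_9, h7_10, h7_11, h7_12, h7_13,
   h7_14, h7_15, h7_16, h7_17, h7_18, h7_19, h7_20, h7_21, h7_22, h7_23, h7_24, h7_25, h7_26,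
   h7_27, h7_28, h7_29, h7_30, h7_31, h7_32, h7_33, h7_34, h7_35, h7_36, h7_37, h7_38, h7_39,
   h7_40]

noncomputable def H8 : List DLL :=
  [h8_0, h8_1, h8_2, h8_3, h8_4, h8_5, h8_6, h8_7, h8_8, h8_9, h8_10, h8_11, h8_12, h8_13,
   h8_14, h8_15, h8_16, h8_17, h8_18, h8_19, h8_20, h8_21, h8_22, h8_23, h8_24, h8_25, h8_26,
   h8_27, h8_28, h8_29, h8_30, h8_31, h8_32, h8_33, h8_34, h8_35, h8_36, h8_37, h8_38, h8_39]

noncomputable def H9 : List DLL :=
  [h9_0, h9_1, h9_2, h9_3, h9_4, h9_5, h9_6, h9_7, h9_8, h9_9, h9_10, h9_11, h9_12, h9_13,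
   h9_14, h9_15, h9_16, h9_17, h9_18, h9_19, h9_20, h9_21, h9_22, h9_23, h9_24, h9_25, h9_26,
   h9_27, h9_28, h9_29, h9_30, h9_31, h9_32, h9_33, h9_34, h9_35, h9_36, h9_37, h9_38, h9_39,
   h9_40, h9_41, h9_42]

noncomputable def H10 : List DLL :=
  [h10_0, h10_1, h10_2, h10_3, h10_4, h10_5, h10_6, h10_7, h10_8, h10_9, h10_10, h10_11, h10_12,
   h10_13, h10_14, h10_15, h10_16, h10_17, h10_18, h10_19, h10_20, h10_21, h10_22, h10_23,
   h10_24, h10_25, h10_26, h10_27, h10_28, h10_29, h10_30, h10_31, h10_32, h10_33, h10_34,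
   h10_35, h10_36, h10_37, h10_38, h10_39, h10_40, h10_41, h10_42, h10_43]

noncomputable def H11 : List DLL :=
  [h11_0, h11_1, h11_2, h11_3, h11_4, h11_5, h11_6, h11_7, h11_8, h11_9, h11_10, h11_11, h11_12,
   h11_13, h11_14, h11_15, h11_16, h11_17, h11_18, h11_19, h11_20, h11_21, h11_22, h11_23,
   h11_24, h11_25, h11_26, h11_27, h11_28, h11_29, h11_30, h11_31, h11_32, h11_33, h11_34,
   h11_35, h11_36, h11_37, h11_38, h11_39, h11_40, h11_41, h11_42, h11_43]

noncomputable def H12 : List DLL :=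
  [h12_0, h12_1, h12_2, h12_3, h12_4, h12_5, h12_6, h12_7, h12_8, h12_9, h12_10, h12_11, h12_12,
   h12_13, h12_14, h12_15, h12_16, h12_17, h12_18, h12_19, h12_20, h12_21, h12_22, h12_23,
   h12_24, h12_25, h12_26, h12_27, h12_28, h12_29, h12_30, h12_31, h12_32, h12_33, h12_34,
   h12_35, h12_36, h12_37, h12_38, h12_39]

noncomputable def H13 : List DLL :=
  [h13_0, h13_1, h13_2, h13_3, h13_4, h13_5, h13_6, h13_7, h13_8, h13_9, h13_10, h13_11, h13_12,
   h13_13, h13_14, h13_15, h13_16, h13_17, h13_18, h13_19, h13_20, h13_21, h13_22, h13_23,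
   h13_24, h13_25, h13_26, h13_27, h13_28, h13_29, h13_30, h13_31, h13_32, h13_33]

noncomputable def H14 : List DLL :=
  [h14_0, h14_1, h14_2, h14_3, h14_4, h14_5, h14_6, h14_7, h14_8, h14_9, h14_10, h14_11, h14_12,
   h14_13, h14_14, h14_15, h14_16, h14_17, h14_18, h14_19, h14_20, h14_21, h14_22, h14_23,
   h14_24, h14_25, h14_26, h14_27, h14_28, h14_29, h14_30, h14_31]

noncomputable def H15 : List DLL :=
  [h15_0, h15_1, h15_2, h15_3, h15_4, h15_5, h15_6, h15_7, h15_8, h15_9, h15_10, h15_11, h15_12,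
   h15_13, h15_14, h15_15, h15_16, h15_17, h15_18, h15_19, h15_20, h15_21, h15_22, h15_23,
   h15_24, h15_25, h15_26, h15_27, h15_28]

noncomputable def H16 : List DLL :=
  [h16_0, h16_1, h16_2, h16_3, h16_4, h16_5, h16_6, h16_7, h16_8, h16_9, h16_10, h16_11, h16_12,
   h16_13, h16_14, h16_15, h16_16, h16_17, h16_18, h16_19, h16_20, h16_21, h16_22, h16_23,
   h16_24, h16_25]

noncomputable def H17 : List DLL :=
  [h17_0, h17_1, h17_2, h17_3, h17_4, h17_5, h17_6, h17_7, h17_8, h17_9, h17_10, h17_11, h17_12,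
   h17_13, h17_14, h17_15, h17_16, h17_17, h17_18, h17_19, h17_20, h17_21, h17_22, h17_23]

noncomputable def H18 : List DLL :=
  [h18_0, h18_1, h18_2, h18_3, h18_4, h18_5, h18_6, h18_7, h18_8, h18_9, h18_10, h18_11, h18_12,
   h18_13, h18_14, h18_15, h18_16, h18_17, h18_18, h18_19, h18_20, h18_21, h18_22, h18_23]

noncomputable def H19 : List DLL :=
  [h19_0, h19_1, h19_2, h19_3, h19_4, h19_5, h19_6, h19_7, h19_8, h19_9, h19_10, h19_11, h19_12,
   h19_13, h19_14, h19_15, h19_16, h19_17, h19_18, h19_19, h19_20, h19_21, h19_22, h19_23]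

noncomputable def H20 : List DLL :=
  [h20_0, h20_1, h20_2, h20_3, h20_4, h20_5, h20_6, h20_7, h20_8, h20_9, h20_10, h20_11, h20_12,
   h20_13, h20_14, h20_15, h20_16, h20_17, h20_18, h20_19, h20_20, h20_21, h20_22, h20_23]

noncomputable def H21 : List DLL :=
  [h21_0, h21_1, h21_2, h21_3, h21_4, h21_5, h21_6, h21_7, h21_8, h21_9, h21_10, h21_11, h21_12,
   h21_13, h21_14, h21_15, h21_16, h21_17, h21_18, h21_19, h21_20, h21_21, h21_22, h21_23]

noncomputable def H22 : List DLL :=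
  [h22_0, h22_1, h22_2, h22_3, h22_4, h22_5, h22_6, h22_7, h22_8, h22_9, h22_10, h22_11, h22_12,
   h22_13, h22_14, h22_15, h22_16, h22_17, h22_18, h22_19, h22_20, h22_21, h22_22, h22_23]

noncomputable def H23 : List DLL :=
  [h23_0, h23_1, h23_2, h23_3, h23_4, h23_5, h23_6, h23_7, h23_8, h23_9, h23_10, h23_11, h23_12,
   h23_13, h23_14, h23_15, h23_16, h23_17, h23_18, h23_19, h23_20, h23_21, h23_22]

noncomputable def H24 : List DLL :=
  [h24_0, h24_1, h24_2, h24_3, h24_4, h24_5, h24_6, h24_7, h24_8, h24_9, h24_10, h24_11, h24_12,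
   h24_13, h24_14, h24_15, h24_16, h24_17, h24_18, h24_19, h24_20, h24_21, h24_22]

noncomputable def H25 : List DLL :=
  [h25_0, h25_1, h25_2, h25_3, h25_4, h25_5, h25_6, h25_7, h25_8, h25_9, h25_10, h25_11, h25_12,
   h25_13, h25_14, h25_15, h25_16, h25_17, h25_18, h25_19, h25_20, h25_21]

noncomputable def H26 : List DLL :=
  [h26_0, h26_1, h26_2, h26_3, h26_4, h26_5, h26_6, h26_7, h26_8, h26_9, h26_10, h26_11, h26_12,
   h26_13, h26_14, h26_15, h26_16, h26_17, h26_18, h26_19, h26_20]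

noncomputable def H27 : List DLL :=
  [h27_0, h27_1, h27_2, h27_3, h27_4, h27_5, h27_6, h27_7, h27_8, h27_9, h27_10, h27_11, h27_12,
   h27_13, h27_14, h27_15, h27_16, h27_17, h27_18, h27_19, h27_20]

noncomputable def H28 : List DLL :=
  [h28_0, h28_1, h28_2, h28_3, h28_4, h28_5, h28_6, h28_7, h28_8, h28_9, h28_10, h28_11, h28_12,
   h28_13, h28_14, h28_15, h28_16, h28_17, h28_18, h28_19]

noncomputable def H29 : List DLL :=
  [h29_0, h29_1, h29_2, h29_3, h29_4, h29_5, h29_6, h29_7, h29_8, h29_9, h29_10, h29_11, h29_12,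
   h29_13, h29_14, h29_15, h29_16, h29_17, h29_18]

noncomputable def H30 : List DLL :=
  [h30_0, h30_1, h30_2, h30_3, h30_4, h30_5, h30_6, h30_7, h30_8, h30_9, h30_10, h30_11, h30_12,
   h30_13, h30_14, h30_15, h30_16, h30_17]

noncomputable def H31 : List DLL :=
  [h31_0, h31_1, h31_2, h31_3, h31_4, h31_5, h31_6, h31_7, h31_8, h31_9, h31_10, h31_11, h31_12,
   h31_13, h31_14, h31_15, h31_16]

noncomputable def H32 : List DLL :=
  [h32_0, h32_1, h32_2, h32_3, h32_4, h32_5, h32_6, h32_7, h32_8, h32_9, h32_10, h32_11, h32_12,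
   h32_13, h32_14]

noncomputable def H33 : List DLL :=
  [h33_0, h33_1, h33_2, h33_3, h33_4, h33_5, h33_6, h33_7, h33_8, h33_9, h33_10, h33_11, h33_12,
   h33_13]

noncomputable def H34 : List DLL :=
  [h34_0, h34_1, h34_2, h34_3, h34_4, h34_5, h34_6, h34_7, h34_8, h34_9, h34_10, h34_11, h34_12,
   h34_13]

noncomputable def H35 : List DLL :=
  [h35_0, h35_1, h35_2, h35_3, h35_4, h35_5, h35_6, h35_7, h35_8, h35_9, h35_10, h35_11, h35_12]

noncomputable def H36 : List DLL :=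
  [h36_0, h36_1, h36_2, h36_3, h36_4, h36_5, h36_6, h36_7, h36_8, h36_9, h36_10, h36_11]

noncomputable def H37 : List DLL :=
  [h37_0, h37_1, h37_2, h37_3, h37_4, h37_5, h37_6, h37_7, h37_8, h37_9, h37_10, h37_11]

noncomputable def H38 : List DLL :=
  [h38_0, h38_1, h38_2, h38_3, h38_4, h38_5, h38_6, h38_7, h38_8, h38_9, h38_10]

noncomputable def H39 : List DLL :=
  [h39_0, h39_1, h39_2, h39_3, h39_4, h39_5, h39_6, h39_7, h39_8, h39_9]

noncomputable def H40 : List DLL :=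
  [h40_0, h40_1, h40_2, h40_3, h40_4, h40_5, h40_6, h40_7, h40_8, h40_9]

noncomputable def H41 : List DLL :=
  [h41_0, h41_1, h41_2, h41_3, h41_4, h41_5, h41_6, h41_7, h41_8, h41_9]

noncomputable def H42 : List DLL :=
  [h42_0, h42_1, h42_2, h42_3, h42_4, h42_5, h42_6, h42_7, h42_8, h42_9]

noncomputable def H43 : List DLL :=
  [h43_0, h43_1, h43_2, h43_3, h43_4, h43_5, h43_6, h43_7, h43_8, h43_9]

noncomputable def H44 : List DLL :=
  [h44_0, h44_1, h44_2, h44_3, h44_4, h44_5, h44_6, h44_7, h44_8, h44_9]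

noncomputable def H45 : List DLL :=
  [h45_0, h45_1, h45_2, h45_3, h45_4, h45_5, h45_6, h45_7, h45_8, h45_9]

noncomputable def H46 : List DLL :=
  [h46_0, h46_1, h46_2, h46_3, h46_4, h46_5, h46_6, h46_7, h46_8, h46_9]

noncomputable def H47 : List DLL :=
  [h47_0, h47_1, h47_2, h47_3, h47_4, h47_5, h47_6, h47_7, h47_8, h47_9]

noncomputable def H48 : List DLL :=
  [h48_0, h48_1, h48_2, h48_3, h48_4, h48_5, h48_6, h48_7, h48_8, h48_9]

noncomputable def H49 : List DLL :=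
  [h49_0, h49_1, h49_2, h49_3, h49_4, h49_5, h49_6, h49_7, h49_8]

noncomputable def H50 : List DLL :=
  [h50_0, h50_1, h50_2, h50_3, h50_4, h50_5, h50_6, h50_7]

noncomputable def H51 : List DLL :=
  [h51_0, h51_1, h51_2, h51_3, h51_4, h51_5, h51_6]

noncomputable def H52 : List DLL :=
  [h52_0, h52_1, h52_2, h52_3, h52_4, h52_5, h52_6]

noncomputable def H53 : List DLL :=
  [h53_0, h53_1, h53_2, h53_3, h53_4, h53_5]

noncomputable def H54 : List DLL :=
  [h54_0, h54_1, h54_2, h54_3, h54_4]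

noncomputable def H55 : List DLL :=
  [h55_0, h55_1, h55_2, h55_3, h55_4]

noncomputable def H56 : List DLL :=
  [h56_0, h56_1, h56_2, h56_3]

noncomputable def H57 : List DLL :=
  [h57_0, h57_1, h57_2]

noncomputable def H58 : List DLL :=
  [h58_0, h58_1]

noncomputable def H59 : List DLL :=
  [h59_0, h59_1]

/-- the tables -/
noncomputable def HH : List (List DLL) :=
  [H0, H1, H2, H3, H4, H5, H6, H7, H8, H9, H10, H11, H12, H13, H14, H15, H16, H17, H18, H19,
   H20, H21, H22, H23, H24, H25, H26, H27, H28, H29, H30, H31, H32, H33, H34, H35, H36, H37,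
   H38, H39, H40, H41, H42, H43, H44, H45, H46, H47, H48, H49, H50, H51, H52, H53, H54, H55,
   H56, H57, H58, H59]

end Vale.Agent.P236JD
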